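import Mathlib

open MvPowerSeries

namespace P283R.U

noncomputable section

variable {σ τ ρ : Type} {A B D : Type} [CommRing A] [CommRing B] [CommRing D]

/-- All coefficients of degree below `n` vanish. -/
def Van (n : ℕ) (F : MvPowerSeries σ A) : Prop :=
  ∀ m : σ →₀ ℕ, m.degree < n → coeff m F = 0

theorem van_zero (F : MvPowerSeries σ A) : Van 0 F := fun _ h => absurd h (Nat.not_lt_zero _)

theorem Van.zero (n : ℕ) : Van n (0 : MvPowerSeries σ A) := fun _ _ => by simp

theorem Van.mono {n k : ℕ} {F : MvPowerSeries σ A} (h : Van n F) (hk : k ≤ n) : Van k F :=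
  fun m hm => h m (hm.trans_le hk)

theorem Van.add {n : ℕ} {F G : MvPowerSeries σ A} (h : Van n F) (h' : Van n G) :
    Van n (F + G) := fun m hm => by rw [map_add, h m hm, h' m hm, add_zero]

theorem Van.sub {n : ℕ} {F G : MvPowerSeries σ A} (h : Van n F) (h' : Van n G) :
    Van n (F - G) := fun m hm => by rw [map_sub, h m hm, h' m hm, sub_zero]

theorem Van.sum {n : ℕ} {ι : Type} (s : Finset ι) {F : ι → MvPowerSeries σ A}
    (h : ∀ i ∈ s, Van n (F i)) : Van n (∑ i ∈ s, F i) := fun m hm => by
  rw [map_sum]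
  exact Finset.sum_eq_zero fun i hi => h i hi m hm

theorem Van.mul {a b : ℕ} {F G : MvPowerSeries σ A} (h : Van a F) (h' : Van b G) :
    Van (a + b) (F * G) := fun m hm => by
  classical
  rw [coeff_mul]
  refine Finset.sum_eq_zero fun p hp => ?_
  rw [Finset.HasAntidiagonal.mem_antidiagonal] at hp
  have : p.1.degree + p.2.degree < a + b := by rw [← map_add, hp]; exact hm
  by_cases h1 : p.1.degree < a
  · rw [h _ h1, zero_mul]
  · rw [h' _ (by omega), mul_zero]

theorem van_one_iff {F : MvPowerSeries σ A} : Van 1 F ↔ constantCoeff F = 0 := by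
  constructor
  · intro h
    simpa using h 0 (by simp)
  · intro h m hm
    have : m = 0 := by
      have : m.degree = 0 := by omega
      exact (Finsupp.degree_eq_zero_iff m).1 this
    subst this
    simpa using h

theorem eq_zero_of_van {F : MvPowerSeries σ A} (h : ∀ n, Van n F) : F = 0 := by
  ext m
  simpa using h (m.degree + 1) m (Nat.lt_succ_self _)

theorem Van.pderiv {n : ℕ} {F : MvPowerSeries σ A} (h : Van (n + 1) F) (i : σ) :
    Van n (pderiv A i F) := fun m hm => by
  rw [coeff_pderiv, h _ (by rw [map_add, Finsupp.degree_single]; omega), zero_mul]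

theorem van_sub_trunc [Finite σ] (n : ℕ) (F : MvPowerSeries σ A) :
    Van n (F - ((truncTotal n F : MvPolynomial σ A) : MvPowerSeries σ A)) := fun m hm => by
  rw [map_sub, MvPolynomial.coeff_coe, coeff_truncTotal _ hm, sub_self]

/-- A series vanishing in degree `≤ n` is a combination of the variables. -/
theorem Van.dec [Fintype σ] {n : ℕ} {F : MvPowerSeries σ A} (h : Van (n + 1) F) :
    ∃ G : σ → MvPowerSeries σ A, (∀ i, Van n (G i)) ∧ F = ∑ i, X i * G i := by
  classical
  have hc : ∀ m : σ →₀ ℕ, m ≠ 0 → ∃ i, m i ≠ 0 := fun m hm => by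
    by_contra hh
    push Not at hh
    exact hm (Finsupp.ext hh)
  choose ix hix using hc
  have hne : ∀ (m : σ →₀ ℕ) (i : σ), m + Finsupp.single i 1 ≠ 0 := fun m i hh => by
    have := congrArg (fun f => f i) hh
    simp at this
  obtain ⟨G, hG⟩ : ∃ G : σ → MvPowerSeries σ A, ∀ i m, coeff m (G i) =
      if ix (m + Finsupp.single i 1) (hne m i) = i then coeff (m + Finsupp.single i 1) F else 0 :=
    ⟨fun i => fun m => if ix (m + Finsupp.single i 1) (hne m i) = i then
      coeff (m + Finsupp.single i 1) F else 0, fun _ _ => rfl⟩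
  refine ⟨G, fun i m hm => ?_, ?_⟩
  · rw [hG, h _ (by rw [map_add, Finsupp.degree_single]; omega), ite_self]
  · ext m
    rw [map_sum]
    by_cases hm : m = 0
    · subst hm
      rw [h 0 (by simp)]
      symm
      refine Finset.sum_eq_zero fun i _ => ?_
      simp
    · rw [Finset.sum_eq_single (ix m hm)]
      · have hle : Finsupp.single (ix m hm) 1 ≤ m := by
          rw [Finsupp.single_le_iff]
          exact Nat.one_le_iff_ne_zero.2 (hix m hm)
        have e : (m - Finsupp.single (ix m hm) 1) + Finsupp.single (ix m hm) 1 = m :=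
          tsub_add_cancel_of_le hle
        rw [X_def, coeff_monomial_mul, if_pos hle, one_mul, hG, if_pos (by congr 1), e]
      · intro i _ hi
        rw [X_def, coeff_monomial_mul]
        split_ifs with hle
        · rw [one_mul, hG, if_neg]
          intro hh
          apply hi
          rw [← hh]
          congr 1
          exact tsub_add_cancel_of_le hle
        · rfl
      · simp

theorem mem_span_iff [Fintype σ] {F : MvPowerSeries σ A} :
    F ∈ Ideal.span (Set.range (X : σ → MvPowerSeries σ A)) ↔ constantCoeff F = 0 := by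
  constructor
  · intro h
    refine Submodule.span_induction (p := fun x _ => constantCoeff x = 0) ?_ ?_ ?_ ?_ h
    · rintro _ ⟨i, rfl⟩
      simp
    · simp
    · intro x y _ _ hx hy
      rw [map_add, hx, hy, add_zero]
    · intro a x _ hx
      rw [smul_eq_mul, map_mul, hx, mul_zero]
  · intro h
    obtain ⟨G, -, rfl⟩ := (van_one_iff.2 h).dec
    exact Ideal.sum_mem _ fun i _ =>
      Ideal.mul_mem_right _ _ (Ideal.subset_span ⟨i, rfl⟩)

/-- An additive map that kills polynomials and is continuous vanishes. -/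
theorem add_zero_of [Finite σ] (E : MvPowerSeries σ A →+ MvPowerSeries τ B)
    (hp : ∀ p : MvPolynomial σ A, E p = 0) (hv : ∀ n F, Van (n + 1) F → Van n (E F))
    (F : MvPowerSeries σ A) : E F = 0 := by
  refine eq_zero_of_van fun n => ?_
  have := hv n _ (van_sub_trunc (n + 1) F)
  rwa [map_sub, hp, sub_zero] at this

/-- A substitution over the coefficient map `j`. -/
structure Loc (j : A →+* B) (ψ : MvPowerSeries σ A →+* MvPowerSeries τ B) : Prop where
  c : ∀ a, ψ (C a) = C (j a)
  x : ∀ i, constantCoeff (ψ (X i)) = 0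

theorem van_map [Fintype σ] {ψ : MvPowerSeries σ A →+* MvPowerSeries τ B}
    (hx : ∀ i, constantCoeff (ψ (X i)) = 0) :
    ∀ (n : ℕ) (F : MvPowerSeries σ A), Van n F → Van n (ψ F)
  | 0, _, _ => van_zero _
  | n + 1, F, h => by
    obtain ⟨G, hG, rfl⟩ := h.dec
    rw [map_sum]
    refine Van.sum _ fun i _ => ?_
    rw [map_mul, add_comm n 1]
    exact (van_one_iff.2 (hx i)).mul (van_map hx n _ (hG i))

theorem Loc.cc [Fintype σ] {j : A →+* B} {ψ : MvPowerSeries σ A →+* MvPowerSeries τ B}
    (h : Loc j ψ) (F : MvPowerSeries σ A) : constantCoeff (ψ F) = j (constantCoeff F) := by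
  have h1 : Van 1 (F - C (constantCoeff F)) := van_one_iff.2 (by simp)
  have h2 := van_one_iff.1 (van_map h.x 1 _ h1)
  rw [map_sub, h.c, map_sub, constantCoeff_C, sub_eq_zero] at h2
  exact h2

/-- Uniqueness of substitutions. -/
theorem hom_ext [Fintype σ] {ψ φ : MvPowerSeries σ A →+* MvPowerSeries τ B}
    (hc : ∀ a, ψ (C a) = φ (C a)) (hx : ∀ i, ψ (X i) = φ (X i))
    (h0 : ∀ i, constantCoeff (ψ (X i)) = 0) : ψ = φ := by
  ext1 F
  have := add_zero_of (ψ.toAddMonoidHom - φ.toAddMonoidHom) (fun p => ?_) (fun n G hG => ?_) F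
  · simpa [sub_eq_zero] using this
  · show ψ p - φ p = 0
    rw [sub_eq_zero]
    induction p using MvPolynomial.induction_on with
    | C a => simpa [MvPolynomial.coe_C] using hc a
    | add p q hp hq => rw [MvPolynomial.coe_add, map_add, map_add, hp, hq]
    | mul_X p i hp => rw [MvPolynomial.coe_mul, MvPolynomial.coe_X, map_mul, map_mul, hp, hx]
  · show Van n (ψ G - φ G)
    exact ((van_map h0 _ _ hG).sub (van_map (fun i => hx i ▸ h0 i) _ _ hG)).mono (Nat.le_succ n)

theorem Loc.ext [Fintype σ] {j : A →+* B} {ψ φ : MvPowerSeries σ A →+* MvPowerSeries τ B}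
    (h : Loc j ψ) (h' : Loc j φ) (hx : ∀ i, ψ (X i) = φ (X i)) : ψ = φ :=
  hom_ext (fun a => by rw [h.c, h'.c]) hx h.x

theorem Loc.comp [Fintype τ] {j : A →+* B} {j' : B →+* D}
    {ψ : MvPowerSeries σ A →+* MvPowerSeries τ B} {φ : MvPowerSeries τ B →+* MvPowerSeries ρ D}
    (h : Loc j ψ) (h' : Loc j' φ) : Loc (j'.comp j) (φ.comp ψ) :=
  ⟨fun a => by simp [h.c, h'.c], fun i => by simp [h'.cc, h.x]⟩

theorem loc_id : Loc (RingHom.id A) (RingHom.id (MvPowerSeries σ A)) :=
  ⟨fun _ => rfl, fun i => by simp⟩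

theorem loc_map (j : A →+* B) : Loc j (map (σ := σ) j) :=
  ⟨fun a => by simp, fun i => by simp⟩

/-- The substitution `X i ↦ φ i` over the coefficient map `j`. -/
def sb [Finite σ] (j : A →+* B) (φ : σ → MvPowerSeries τ B) (h : ∀ i, constantCoeff (φ i) = 0) :
    MvPowerSeries σ A →+* MvPowerSeries τ B :=
  (substAlgHom (R := B) (hasSubst_of_constantCoeff_zero h)).toRingHom.comp (map j)

theorem sb_X [Finite σ] (j : A →+* B) (φ : σ → MvPowerSeries τ B)
    (h : ∀ i, constantCoeff (φ i) = 0) (i : σ) : sb j φ h (X i) = φ i := by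
  simp [sb, subst_X (hasSubst_of_constantCoeff_zero h)]

theorem loc_sb [Finite σ] (j : A →+* B) (φ : σ → MvPowerSeries τ B)
    (h : ∀ i, constantCoeff (φ i) = 0) : Loc j (sb j φ h) :=
  ⟨fun a => by simp [sb], fun i => by rw [sb_X, h]⟩

theorem sb_id_apply [Finite σ] (φ : σ → MvPowerSeries τ A) (h : ∀ i, constantCoeff (φ i) = 0)
    (F : MvPowerSeries σ A) : sb (RingHom.id A) φ h F = subst φ F := by
  simp [sb]

theorem exists_loc [Finite σ] (j : A →+* B) (φ : σ → MvPowerSeries τ B)
    (h : ∀ i, constantCoeff (φ i) = 0) :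
    ∃ ψ : MvPowerSeries σ A →+* MvPowerSeries τ B, Loc j ψ ∧ ∀ i, ψ (X i) = φ i :=
  ⟨sb j φ h, loc_sb j φ h, sb_X j φ h⟩

/-- Chain rule. -/
theorem Loc.chain [Fintype σ] {j : A →+* B} {ψ : MvPowerSeries σ A →+* MvPowerSeries τ B}
    (h : Loc j ψ) (l : τ) (F : MvPowerSeries σ A) :
    pderiv B l (ψ F) = ∑ i, ψ (pderiv A i F) * pderiv B l (ψ (X i)) := by
  classical
  let E : MvPowerSeries σ A →+ MvPowerSeries τ B :=
    { toFun := fun F => pderiv B l (ψ F) - ∑ i, ψ (pderiv A i F) * pderiv B l (ψ (X i))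
      map_zero' := by simp
      map_add' := fun F G => by
        simp only [map_add, add_mul, Finset.sum_add_distrib]
        ring }
  have := add_zero_of E (fun p => ?_) (fun n G hG => ?_) F
  · exact sub_eq_zero.1 this
  · show pderiv B l (ψ p) - ∑ i, ψ (pderiv A i p) * pderiv B l (ψ (X i)) = 0
    rw [sub_eq_zero]
    induction p using MvPolynomial.induction_on with
    | C a => simp [MvPolynomial.coe_C, h.c]
    | add p q hp hq =>
      simp only [MvPolynomial.coe_add, map_add, hp, hq, add_mul, Finset.sum_add_distrib]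
    | mul_X p i hp =>
      rw [MvPolynomial.coe_mul, MvPolynomial.coe_X, map_mul, Derivation.leibniz, hp]
      simp only [Derivation.leibniz, smul_eq_mul, map_add, map_mul, add_mul,
        Finset.sum_add_distrib, pderiv_X, Finset.mul_sum]
      congr 1
      · rw [Finset.sum_eq_single i]
        · simp
        · intro b _ hb
          simp [hb.symm]
        · simp
      · exact Finset.sum_congr rfl fun b _ => by ring
  · show Van n (pderiv B l (ψ G) - ∑ i, ψ (pderiv A i G) * pderiv B l (ψ (X i)))
    refine ((van_map h.x _ _ hG).pderiv l).sub (Van.sum _ fun i _ => ?_)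
    exact (van_map h.x _ _ (hG.pderiv i)).mul (van_zero _)

/-- The Jacobian determinant of a substitution. -/
def jac [Fintype σ] [DecidableEq σ] (ψ : MvPowerSeries σ A →+* MvPowerSeries σ B) :
    MvPowerSeries σ B :=
  (Matrix.of fun i l => pderiv B l (ψ (X i))).det

theorem jac_comp [Fintype σ] [DecidableEq σ] {j' : B →+* D}
    (ψ : MvPowerSeries σ A →+* MvPowerSeries σ B) {φ : MvPowerSeries σ B →+* MvPowerSeries σ D}
    (h' : Loc j' φ) : jac (φ.comp ψ) = φ (jac ψ) * jac φ := by
  unfold jac
  rw [RingHom.map_det, ← Matrix.det_mul]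
  congr 1
  ext1 i l
  simp only [Matrix.of_apply, RingHom.comp_apply, Matrix.mul_apply, RingHom.mapMatrix_apply,
    Matrix.map_apply]
  exact h'.chain l _

theorem jac_diag [Fintype σ] [DecidableEq σ] (ψ : MvPowerSeries σ A →+* MvPowerSeries σ B)
    (h : ∀ i l, i ≠ l → pderiv B l (ψ (X i)) = 0) :
    jac ψ = ∏ i, pderiv B i (ψ (X i)) := by
  unfold jac
  rw [← Matrix.det_diagonal]
  congr 1
  ext1 i l
  by_cases e : i = l
  · subst e
    simp
  · simp [Matrix.diagonal_apply_ne _ e, h i l e]

theorem jac_of_X [Fintype σ] [DecidableEq σ] (ψ : MvPowerSeries σ A →+* MvPowerSeries σ B)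
    (h : ∀ i, ψ (X i) = X i) : jac ψ = 1 := by
  rw [jac_diag]
  · simp [h]
  · intro i l e
    rw [h, pderiv_X_of_ne e]

/-- Series in the first variables, seen in one more variable. -/
def ren (σ : Type) (A : Type) [CommRing A] :
    MvPowerSeries σ A →+* MvPowerSeries (Option σ) A :=
  (rename (Function.Embedding.some : σ ↪ Option σ) :
    MvPowerSeries σ A →ₐ[A] MvPowerSeries (Option σ) A).toRingHom

theorem ren_X (i : σ) : ren σ A (X i) = X (some i) := by simp [ren]

theorem loc_ren : Loc (RingHom.id A) (ren σ A) :=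
  ⟨fun a => by simp [ren], fun i => by simp [ren]⟩

theorem pderiv_none_ren [Fintype σ] (F : MvPowerSeries σ A) :
    pderiv A none (ren σ A F) = 0 := by
  rw [loc_ren.chain]
  refine Finset.sum_eq_zero fun i _ => ?_
  rw [ren_X, pderiv_X_of_ne (by simp), mul_zero]

theorem pderiv_some_ren [Fintype σ] (l : σ) (F : MvPowerSeries σ A) :
    pderiv A (some l) (ren σ A F) = ren σ A (pderiv A l F) := by
  rw [loc_ren.chain, Finset.sum_eq_single l]
  · rw [ren_X, pderiv_X_self, mul_one]
  · intro i _ hi
    rw [ren_X, pderiv_X_of_ne (by simpa using hi), mul_zero]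
  · simp

theorem det_opt_col [Fintype σ] [DecidableEq σ] (M : Matrix (Option σ) (Option σ) A)
    (h : ∀ i, M (some i) none = 0) :
    M.det = M none none * (Matrix.of fun i l => M (some i) (some l)).det := by
  rw [← Matrix.det_submatrix_equiv_self (Equiv.optionEquivSumPUnit.{0} σ).symm M]
  have : M.submatrix (Equiv.optionEquivSumPUnit.{0} σ).symm
      (Equiv.optionEquivSumPUnit.{0} σ).symm =
      Matrix.fromBlocks (Matrix.of fun i l => M (some i) (some l)) 0
        (Matrix.of fun _ l => M none (some l)) (Matrix.of fun _ _ => M none none) := by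
    ext (i | i) (l | l) <;> simp [h]
  rw [this, Matrix.det_fromBlocks_zero₁₂, mul_comm]
  simp

theorem det_opt_row [Fintype σ] [DecidableEq σ] (M : Matrix (Option σ) (Option σ) A)
    (h : ∀ l, M none (some l) = 0) :
    M.det = M none none * (Matrix.of fun i l => M (some i) (some l)).det := by
  rw [← Matrix.det_transpose, det_opt_col _ (by simpa using h), ← Matrix.det_transpose
    (Matrix.of fun i l => M (some i) (some l))]
  rfl

/-- Charts that act on the first variables by a chart in these variables. -/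
theorem jac_col [Fintype σ] [DecidableEq σ]
    (ψ : MvPowerSeries (Option σ) A →+* MvPowerSeries (Option σ) B)
    (φ : MvPowerSeries σ A →+* MvPowerSeries σ B)
    (h : ∀ i, ψ (X (some i)) = ren σ B (φ (X i))) :
    jac ψ = pderiv B none (ψ (X none)) * ren σ B (jac φ) := by
  unfold jac
  rw [det_opt_col _ (fun i => by simp only [Matrix.of_apply]; rw [h, pderiv_none_ren]),
    RingHom.map_det]
  congr 2
  ext1 i l
  simp only [Matrix.of_apply, RingHom.mapMatrix_apply, Matrix.map_apply]
  rw [h, pderiv_some_ren]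

/-- Charts that fix the last variable and have a diagonal block. -/
theorem jac_row [Fintype σ] [DecidableEq σ]
    (ψ : MvPowerSeries (Option σ) A →+* MvPowerSeries (Option σ) B) (h0 : ψ (X none) = X none)
    (h : ∀ i l, i ≠ l → pderiv B (some l) (ψ (X (some i))) = 0) :
    jac ψ = ∏ i, pderiv B (some i) (ψ (X (some i))) := by
  unfold jac
  rw [det_opt_row _ (fun l => by
    simp only [Matrix.of_apply]; rw [h0, pderiv_X_of_ne (by simp)]), ← Matrix.det_diagonal]
  simp only [Matrix.of_apply]
  rw [h0, pderiv_X_self, one_mul]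
  congr 1
  ext1 i l
  by_cases e : i = l
  · subst e
    simp
  · simp [Matrix.diagonal_apply_ne _ e, h i l e]

theorem comp_ren [Fintype σ] {j : A →+* B}
    {ψ : MvPowerSeries (Option σ) A →+* MvPowerSeries (Option τ) B}
    {φ : MvPowerSeries σ A →+* MvPowerSeries τ B} (hψ : Loc j ψ) (hφ : Loc j φ)
    (h : ∀ i, ψ (X (some i)) = ren τ B (φ (X i))) (F : MvPowerSeries σ A) :
    ψ (ren σ A F) = ren τ B (φ F) := by
  have : ψ.comp (ren σ A) = (ren τ B).comp φ := by
    refine hom_ext (fun a => ?_) (fun i => ?_) (fun i => ?_)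
    · simp only [RingHom.comp_apply]
      rw [loc_ren.c, hφ.c, loc_ren.c, RingHom.id_apply, hψ.c, RingHom.id_apply]
    · simp only [RingHom.comp_apply]
      rw [ren_X, h]
    · simp only [RingHom.comp_apply]
      rw [ren_X, hψ.x]
  exact congrArg (fun f => f F) this

end

end P283R.U
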