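import Vale.Agent.P283R.U.St

/-!
# Monomialisation: renaming of the variables, and the empty set of variables
-/

open MvPowerSeries Vale.Agent.P283R.Co

noncomputable section

namespace P283R.U.Rn

variable {σ τ A B : Type} [CommRing A] [CommRing B]

theorem um_mul {F G : MvPowerSeries σ A} (h : UM F) (h' : UM G) : UM (F * G) := by
  obtain ⟨u, m, hu, rfl⟩ := h
  obtain ⟨v, n, hv, rfl⟩ := h'
  exact ⟨u * v, m + n, hu.mul hv, by rw [mul_mul_mul_comm, monomial_mul_monomial, one_mul]⟩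

theorem um_unit {F : MvPowerSeries σ A} (h : IsUnit F) : UM F := ⟨F, 0, h, by simp⟩

theorem um_X (j : σ) : UM (X j : MvPowerSeries σ A) :=
  ⟨1, Finsupp.single j 1, isUnit_one, by rw [one_mul, X_def]⟩

theorem um_pow {F : MvPowerSeries σ A} (h : UM F) : ∀ n : ℕ, UM (F ^ n)
  | 0 => by rw [pow_zero]; exact um_unit isUnit_one
  | n + 1 => by rw [pow_succ]; exact um_mul (um_pow h n) h

theorem um_map (ψ : MvPowerSeries σ A →+* MvPowerSeries τ B) (h : ∀ j, UM (ψ (X j)))
    {F : MvPowerSeries σ A} (hF : UM F) : UM (ψ F) := by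
  obtain ⟨u, m, hu, rfl⟩ := hF
  rw [map_mul, monomial_one_eq, Finsupp.prod, map_prod]
  refine um_mul (um_unit (hu.map ψ)) (Finset.prod_induction _ UM (fun _ _ => um_mul)
    (um_unit isUnit_one) fun j _ => ?_)
  rw [map_pow]; exact um_pow (h j) _

/-- renaming of the variables -/
def rn [Finite σ] (f : σ → τ) (A : Type) [CommRing A] :
    MvPowerSeries σ A →+* MvPowerSeries τ A :=
  sb (RingHom.id A) (fun i => X (f i)) fun _ => constantCoeff_X _

theorem rn_X [Finite σ] (f : σ → τ) (i : σ) : rn f A (X i) = X (f i) := sb_X _ _ _ _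

theorem loc_rn [Finite σ] (f : σ → τ) : Loc (RingHom.id A) (rn f A) := loc_sb _ _ _

variable [Fintype σ] [Fintype τ]

theorem rn_rn (e : σ ≃ τ) (F : MvPowerSeries τ A) : rn e A (rn e.symm A F) = F := by
  have := ((loc_rn (A := A) e.symm).comp (loc_rn e)).ext loc_id fun i => by simp [rn_X]
  exact congrArg (fun f => f F) this

omit [Fintype τ] in
theorem pderiv_rn (e : σ ≃ τ) (l : τ) (F : MvPowerSeries σ A) :
    pderiv A l (rn e A F) = rn e A (pderiv A (e.symm l) F) := by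
  rw [(loc_rn e).chain, Finset.sum_eq_single (e.symm l)]
  · rw [rn_X, e.apply_symm_apply, pderiv_X_self, mul_one]
  · intro i _ hi
    rw [rn_X, pderiv_X_of_ne fun h => hi (by rw [← h, e.symm_apply_apply]), mul_zero]
  · simp

theorem jac_rn [DecidableEq σ] [DecidableEq τ] (e : σ ≃ τ)
    (Φ : MvPowerSeries σ A →+* MvPowerSeries σ B) :
    jac (((rn e B).comp Φ).comp (rn e.symm A)) = rn e B (jac Φ) := by
  unfold jac
  rw [RingHom.map_det, ← Matrix.det_submatrix_equiv_self e]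
  congr 1
  ext1 i l
  simp [rn_X, pderiv_rn]

end P283R.U.Rn

namespace P283R.U

open Rn

variable {k : Type} [Field k] {ι : Type} {U : Ultrafilter ι} {σ τ : Type} [Fintype σ] [Fintype τ]
  [DecidableEq σ] [DecidableEq τ]

theorem uAt_equiv (e : σ ≃ τ) (h : UAt k U σ) : UAt k U τ := by
  intro S F hF
  obtain ⟨T, c, h1, h2, h3⟩ := h ⟨S.A, S.s, fun i j => S.x i (e j), S.gen, fun i j => S.pos i _⟩
    (rn e.symm S.A F) fun h0 => hF (by rw [← rn_rn e F, h0, map_zero])
  have hX : ∀ j, UM (rn e T.A (X j)) := fun j => by rw [rn_X]; exact um_X _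
  have hp : ∀ i, Pos fun j => T.x i (e.symm j) := fun i j => T.pos i _
  refine ⟨⟨T.A, T.s, fun i j => T.x i (e.symm j), T.gen, hp⟩,
    ⟨c.ρ, ((rn e T.A).comp c.Φ).comp (rn e.symm S.A),
      (loc_rn e.symm).comp (c.loc.comp (loc_rn e)), c.rel.mono fun i hi => ⟨hi.1, fun j => ?_⟩⟩,
    um_map _ hX h1, ?_, fun j => ?_⟩
  · have := hi.2 (e.symm j)
    simp only [Equiv.apply_symm_apply] at this
    rw [this, RingHom.comp_apply, RingHom.comp_apply, rn_X, (loc_rn e).ev_map _ (hp i)]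
    simp [rn_X, ev_X (hp i)]
  · exact (jac_rn e c.Φ).symm ▸ um_map _ hX h2
  · change UM (rn e T.A (c.Φ (rn e.symm S.A (X j))))
    rw [rn_X]; exact um_map _ hX (h3 _)

theorem uAt_empty [IsEmpty σ] : UAt k U σ := by
  intro S F hF
  have h0 : constantCoeff F ≠ 0 := fun h => hF (by
    ext m; rw [Subsingleton.elim m 0]; simpa using h)
  obtain ⟨B, _, _, j, t, h1, h2, h3⟩ := Vale.Agent.P283M.U.adj_unit U S.s S.gen h0
  refine ⟨⟨B, t, S.x, h1, S.pos⟩, ⟨j, map j, loc_map j,
    h3.mono fun i hi => ⟨hi, fun l => isEmptyElim l⟩⟩, um_unit ?_, um_unit ?_,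
    fun l => isEmptyElim l⟩
  · exact isUnit_iff_constantCoeff.2 (by rwa [constantCoeff_map])
  · simp [jac]

end P283R.U
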