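import Vale.Agent.P283R.U.Hom

open MvPowerSeries

namespace P283R.U

noncomputable section

variable {σ : Type} {A : Type} [CommRing A]

theorem opt_ren [Fintype σ] (F : MvPowerSeries σ A) :
    optionEquivLeft σ A (ren σ A F) = PowerSeries.C F := by
  have : ((optionEquivLeft σ A).symm.toRingEquiv.toRingHom.comp PowerSeries.C :
      MvPowerSeries σ A →+* MvPowerSeries (Option σ) A) = ren σ A := by
    symm
    refine hom_ext (fun a => ?_) (fun i => ?_) loc_ren.x
    · rw [loc_ren.c]
      apply (optionEquivLeft σ A).injective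
      simp
    · rw [ren_X]
      apply (optionEquivLeft σ A).injective
      simp
  rw [← this]
  simp

theorem cc_coeff_opt (F : MvPowerSeries (Option σ) A) (n : ℕ) :
    constantCoeff (PowerSeries.coeff n (optionEquivLeft σ A F)) =
      coeff (Finsupp.single none n) F := by
  rw [← coeff_zero_eq_constantCoeff_apply, coeff_coeff_optionEquivLeft]
  have : (0 : σ →₀ ℕ).optionElim n = Finsupp.single none n := by
    ext a
    cases a <;> simp
  rw [this]

/-- Polynomials in the last variable. -/
def pv (σ : Type) (A : Type) [CommRing A] :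
    Polynomial (MvPowerSeries σ A) →+* MvPowerSeries (Option σ) A :=
  Polynomial.eval₂RingHom (ren σ A) (X none)

theorem opt_pv [Fintype σ] (p : Polynomial (MvPowerSeries σ A)) :
    optionEquivLeft σ A (pv σ A p) = (p : PowerSeries (MvPowerSeries σ A)) := by
  induction p using Polynomial.induction_on' with
  | add p q hp hq => rw [map_add, map_add, hp, hq, Polynomial.coe_add]
  | monomial n a =>
    rw [← Polynomial.C_mul_X_pow_eq_monomial]
    simp [pv, opt_ren]

/-- Weierstrass preparation over `A[[σ]]`. -/
theorem wei [Fintype σ] [Nontrivial A] (F : MvPowerSeries (Option σ) A) (e : ℕ)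
    (hu : IsUnit (coeff (Finsupp.single none e) F))
    (hl : ∀ i < e, coeff (Finsupp.single none i) F = 0) :
    ∃ (P : Polynomial (MvPowerSeries σ A)) (u : MvPowerSeries (Option σ) A), IsUnit u ∧
      P.Monic ∧ P.natDegree = e ∧ (∀ i < e, constantCoeff (P.coeff i) = 0) ∧
      F = u * pv σ A P := by
  classical
  set I : Ideal (MvPowerSeries σ A) := Ideal.span (Set.range X) with hI
  set g := optionEquivLeft σ A F with hg
  have hge : IsUnit (PowerSeries.coeff e g) := by
    rw [isUnit_iff_constantCoeff, hg, cc_coeff_opt]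
    exact hu
  have hgl : ∀ i < e, PowerSeries.coeff i g ∈ I := fun i hi => by
    rw [hI, mem_span_iff, hg, cc_coeff_opt]
    exact hl i hi
  have hord : (g.map (Ideal.Quotient.mk I)).order = e := by
    rw [PowerSeries.order_eq_nat]
    refine ⟨?_, fun i hi => ?_⟩
    · rw [PowerSeries.coeff_map, Ne, Ideal.Quotient.eq_zero_iff_mem, hI, mem_span_iff, hg,
        cc_coeff_opt]
      exact hu.ne_zero
    · rw [PowerSeries.coeff_map, Ideal.Quotient.eq_zero_iff_mem]
      exact hgl i hi
  have hn : (g.map (Ideal.Quotient.mk I)).order.toNat = e := by rw [hord]; rfl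
  have H : g.IsWeierstrassDivisorAt I := by
    rw [PowerSeries.IsWeierstrassDivisorAt, hn]
    exact hge
  have W := H.isWeierstrassDivisionAt_div_mod (PowerSeries.X ^ e)
  set q := H.div (PowerSeries.X ^ e)
  set r := H.mod (PowerSeries.X ^ e)
  have hdeg : r.degree < e := by
    have := W.degree_lt
    rwa [hn] at this
  have hr : ∀ i < e, constantCoeff (r.coeff i) = 0 := fun i hi => by
    have := W.coeff_f_sub_r_mem (i := i) (by rw [hn]; exact hi)
    rw [map_sub, PowerSeries.coeff_X_pow, if_neg hi.ne, zero_sub, neg_mem_iff,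
      Polynomial.coeff_coe] at this
    exact mem_span_iff.1 this
  have hq : IsUnit q := by
    have h2 := congrArg (fun t => constantCoeff (PowerSeries.coeff e t)) W.eq_mul_add
    simp only [PowerSeries.coeff_X_pow_self, map_one, map_add, Polynomial.coeff_coe,
      Polynomial.coeff_eq_zero_of_degree_lt hdeg, add_zero] at h2
    rw [PowerSeries.coeff_mul, map_sum, Finset.sum_eq_single (e, 0)] at h2
    · rw [PowerSeries.isUnit_iff_constantCoeff, isUnit_iff_constantCoeff]
      rw [map_mul, mul_comm, PowerSeries.coeff_zero_eq_constantCoeff] at h2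
      exact .of_mul_eq_one _ h2.symm
    · intro p hp hne
      rw [Finset.HasAntidiagonal.mem_antidiagonal] at hp
      have : p.1 < e := by
        by_contra hh
        apply hne
        ext <;> simp <;> omega
      rw [map_mul, mem_span_iff.1 (hgl _ this), zero_mul]
    · simp
  have hd2 : r.degree < (Polynomial.X (R := MvPowerSeries σ A) ^ e).degree := by
    rwa [Polynomial.degree_X_pow]
  refine ⟨Polynomial.X ^ e - r, (optionEquivLeft σ A).symm ↑(hq.unit⁻¹),
    (Units.isUnit _).map _, .sub_of_left (Polynomial.monic_X_pow _) hd2, ?_, fun i hi => ?_, ?_⟩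
  · apply Polynomial.natDegree_eq_of_degree_eq_some
    rw [Polynomial.degree_sub_eq_left_of_degree_lt hd2, Polynomial.degree_X_pow]
  · rw [Polynomial.coeff_sub, Polynomial.coeff_X_pow, if_neg hi.ne, zero_sub, map_neg, hr i hi,
      neg_zero]
  · apply (optionEquivLeft σ A).injective
    rw [map_mul, opt_pv, AlgEquiv.apply_symm_apply, ← hg, Polynomial.coe_sub, Polynomial.coe_pow,
      Polynomial.coe_X, W.eq_mul_add, add_sub_cancel_right, mul_comm g, ← mul_assoc,
      IsUnit.val_inv_mul, one_mul]

theorem shift_pv [Fintype σ] {ψ : MvPowerSeries (Option σ) A →+* MvPowerSeries (Option σ) A}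
    (hψ : Loc (RingHom.id A) ψ) {h : MvPowerSeries σ A} (h0 : ψ (X none) = X none + ren σ A h)
    (h1 : ∀ i, ψ (X (some i)) = X (some i)) (P : Polynomial (MvPowerSeries σ A)) :
    ψ (pv σ A P) = pv σ A (Polynomial.taylor h P) := by
  have hr : ∀ F, ψ (ren σ A F) = ren σ A F := fun F =>
    comp_ren hψ loc_id (fun i => by rw [h1, RingHom.id_apply, ren_X]) F
  induction P using Polynomial.induction_on' with
  | add p q hp hq => rw [map_add, map_add, hp, hq, map_add, map_add]
  | monomial n a =>
    rw [← Polynomial.C_mul_X_pow_eq_monomial, Polynomial.taylor_apply]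
    simp [pv, hr, h0, Polynomial.eval₂_pow]

/-- Weierstrass preparation followed by the Tschirnhaus shift. -/
theorem tsch [Fintype σ] [Nontrivial A] (F : MvPowerSeries (Option σ) A) (e : ℕ) (he : 0 < e)
    (hE : IsUnit (e : A)) (hu : IsUnit (coeff (Finsupp.single none e) F))
    (hl : ∀ i < e, coeff (Finsupp.single none i) F = 0) :
    ∃ (h : MvPowerSeries σ A) (a : ℕ → MvPowerSeries σ A) (u : MvPowerSeries (Option σ) A),
      constantCoeff h = 0 ∧ (∀ j, constantCoeff (a j) = 0) ∧ IsUnit u ∧
      ∀ ψ : MvPowerSeries (Option σ) A →+* MvPowerSeries (Option σ) A,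
        Loc (RingHom.id A) ψ → ψ (X none) = X none + ren σ A h →
        (∀ i, ψ (X (some i)) = X (some i)) →
        ψ F = u * (X none ^ e + ∑ j ∈ Finset.range (e - 1), ren σ A (a j) * X none ^ j) := by
  classical
  obtain ⟨P, u, hu', hm, hd, hc, rfl⟩ := wei F e hu hl
  obtain ⟨k, rfl⟩ : ∃ k, e = k + 1 := ⟨e - 1, by omega⟩
  obtain ⟨w, hw⟩ := hE.exists_left_inv
  set h : MvPowerSeries σ A := -(C w * P.coeff k) with hh
  have hh0 : constantCoeff h = 0 := by
    rw [hh, map_neg, map_mul, hc k (Nat.lt_succ_self k), mul_zero, neg_zero]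
  set T := Polynomial.taylor h P with hT
  have hTd : T.natDegree = k + 1 := by rw [hT, Polynomial.natDegree_taylor, hd]
  have hTm : T.coeff (k + 1) = 1 := by
    rw [← hTd]
    show T.leadingCoeff = 1
    rw [hT, Polynomial.leadingCoeff_taylor]
    exact hm
  have hP1 : P.coeff (k + 1) = 1 := by
    rw [← hd]
    exact hm
  have hTk : T.coeff k = 0 := by
    rw [hT, Polynomial.taylor_coeff, Polynomial.eval_eq_sum_range' (n := 2)]
    · simp only [Finset.sum_range_succ, Finset.sum_range_zero, Polynomial.hasseDeriv_coeff,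
        zero_add, Nat.choose_self, Nat.cast_one, one_mul, pow_zero, mul_one, pow_one]
      rw [add_comm 1 k, hP1, Nat.choose_succ_self_right, hh, mul_one]
      have : ((k + 1 : ℕ) : MvPowerSeries σ A) * C w = 1 := by
        rw [← map_natCast (C : A →+* MvPowerSeries σ A), ← map_mul, mul_comm, hw, map_one]
      rw [mul_neg, ← mul_assoc, this, one_mul, add_neg_cancel]
    · have := Polynomial.natDegree_hasseDeriv_le P k
      omega
  have hmap : P.map (constantCoeff : MvPowerSeries σ A →+* A) = Polynomial.X ^ (k + 1) := by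
    ext i
    rw [Polynomial.coeff_map, Polynomial.coeff_X_pow]
    split_ifs with hi
    · rw [hi, hP1, map_one]
    · rcases lt_or_gt_of_ne hi with h1 | h1
      · exact hc i h1
      · rw [Polynomial.coeff_eq_zero_of_natDegree_lt (by omega), map_zero]
  have hT0 : ∀ j < k + 1, constantCoeff (T.coeff j) = 0 := fun j hj => by
    rw [← Polynomial.coeff_map, hT, Polynomial.taylor_apply, Polynomial.map_comp, hmap]
    simp [hh0, Polynomial.coeff_X_pow, hj.ne]
  have hx : ∀ i : Option σ, constantCoeff (i.elim (X none + ren σ A h) (fun i => X (some i)) :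
      MvPowerSeries (Option σ) A) = 0 := by
    rintro (_ | i)
    · simp [loc_ren.cc, hh0]
    · simp
  obtain ⟨ψ₀, hψ₀, hψx⟩ := exists_loc (RingHom.id A) _ hx
  refine ⟨h, fun j => if j < k + 1 then T.coeff j else 0, ψ₀ u, hh0, fun j => ?_, hu'.map _,
    fun ψ hψ h0 h1 => ?_⟩
  · show constantCoeff (if j < k + 1 then T.coeff j else 0) = 0
    split_ifs with hj
    · exact hT0 j hj
    · simp
  · have : ψ = ψ₀ := hψ.ext hψ₀ (by
      rintro (_ | i)
      · rw [h0, hψx]; rfl
      · rw [h1, hψx]; rfl)
    rw [map_mul, shift_pv hψ h0 h1, this, ← hT]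
    congr 1
    rw [pv, Polynomial.coe_eval₂RingHom, Polynomial.eval₂_eq_sum_range, hTd, Finset.sum_range_succ,
      Finset.sum_range_succ, hTm, hTk, map_zero, zero_mul, add_zero, map_one, one_mul, add_comm,
      Nat.add_sub_cancel]
    congr 1
    refine Finset.sum_congr rfl fun j hj => ?_
    have hj' : j < k + 1 := by have := Finset.mem_range.1 hj; omega
    simp only [if_pos hj']

end

end P283R.U
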