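import Vale.Agent.P283R.U.St
import Vale.Agent.P283R.U.Tsch

/-!
# The toric loop of the monomialisation
-/

attribute [-instance] HahnSeries.powerSeriesAlgebra

open MvPowerSeries Vale.Agent.P283R.Co Vale.Agent.P283M.U

noncomputable section

namespace P283R.U.Lo

section mon

variable {σ τ A B : Type} [CommRing A] [CommRing B]

theorem um_unit {u : MvPowerSeries σ A} (h : IsUnit u) : UM u := ⟨u, 0, h, by simp⟩

theorem um_mul {F G : MvPowerSeries σ A} (h : UM F) (h' : UM G) : UM (F * G) := by
  obtain ⟨u, μ, hu, rfl⟩ := h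
  obtain ⟨v, ν, hv, rfl⟩ := h'
  refine ⟨u * v, μ + ν, hu.mul hv, ?_⟩
  rw [← one_mul (1 : A), ← monomial_mul_monomial, one_mul]; ring

theorem um_prod {κ : Type} {s : Finset κ} {F : κ → MvPowerSeries σ A} (h : ∀ i ∈ s, UM (F i)) :
    UM (∏ i ∈ s, F i) := Finset.prod_induction _ _ (fun _ _ => um_mul) (um_unit isUnit_one) h

theorem um_pow {F : MvPowerSeries σ A} (h : UM F) (n : ℕ) : UM (F ^ n) := by
  induction n with
  | zero => simpa using um_unit isUnit_one
  | succ n ih => rw [pow_succ]; exact um_mul ih h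

theorem um_X (l : σ) : UM (X l : MvPowerSeries σ A) :=
  ⟨1, Finsupp.single l 1, isUnit_one, by rw [one_mul, X_def]⟩

theorem lm_map [Fintype σ] {ψ : MvPowerSeries (Option σ) A →+* MvPowerSeries τ B}
    (hψ : ∀ l, UM (ψ (X (some l)))) {F : MvPowerSeries (Option σ) A} (h : LM F) : UM (ψ F) := by
  obtain ⟨u, m, hu, rfl⟩ := h
  rw [map_mul, monomial_one_eq, Finsupp.prod, map_prod, map_prod]
  refine um_mul (um_unit (hu.map ψ)) (um_prod fun l _ => ?_)
  rw [map_pow, map_pow, ren_X]
  exact um_pow (hψ l) _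

theorem lm_X_pow [Fintype σ] (l : σ) (n : ℕ) : LM (X (some l) ^ n : MvPowerSeries (Option σ) A) :=
  ⟨1, Finsupp.single l n, isUnit_one, by rw [one_mul, ← X_pow_eq, map_pow, ren_X]⟩

theorem lm_X [Fintype σ] (l : σ) : LM (X (some l) : MvPowerSeries (Option σ) A) := by
  simpa using lm_X_pow (A := A) l 1

theorem mon_split (β : σ →₀ ℕ) (l : σ) (n : ℕ) :
    (monomial (n • (β + Finsupp.single l 1)) (1 : A)) = monomial (n • β) 1 * X l ^ n := by
  rw [X_pow_eq, monomial_mul_monomial, one_mul, smul_add, Finsupp.smul_single, smul_eq_mul, mul_one]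

/-- restriction to the axis of the last variable -/
def kap (σ A : Type) [CommRing A] : MvPowerSeries (Option σ) A →+* PowerSeries A :=
  (PowerSeries.map constantCoeff).comp (optionEquivLeft σ A).toRingEquiv.toRingHom

theorem kap_apply (F : MvPowerSeries (Option σ) A) :
    kap σ A F = PowerSeries.map constantCoeff (optionEquivLeft σ A F) := rfl

theorem coeff_kap (F : MvPowerSeries (Option σ) A) (n : ℕ) :
    PowerSeries.coeff n (kap σ A F) = coeff (Finsupp.single none n) F := by
  rw [kap_apply, PowerSeries.coeff_map, cc_coeff_opt]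

theorem kap_ren [Fintype σ] (b : MvPowerSeries σ A) :
    kap σ A (ren σ A b) = PowerSeries.C (constantCoeff b) := by
  rw [kap_apply, opt_ren, PowerSeries.map_C]

theorem kap_none : kap σ A (X none) = PowerSeries.X := by simp [kap_apply]

theorem kap_some (l : σ) : kap σ A (X (some l)) = 0 := by simp [kap_apply]

theorem kap_C (a : A) : kap σ A (C a) = PowerSeries.C a := by simp [kap_apply]

theorem kap_loc [Fintype σ] {j : A →+* B}
    {ψ : MvPowerSeries (Option σ) A →+* MvPowerSeries (Option σ) B} (h : Loc j ψ)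
    (h0 : ∀ o, kap σ B (ψ (X o)) = 0) (W : MvPowerSeries (Option σ) A) :
    kap σ B (ψ W) = PowerSeries.C (j (constantCoeff W)) := by
  obtain ⟨G, -, hG⟩ := (van_one_iff.2 (by simp : constantCoeff (W - C (constantCoeff W)) = 0)).dec
  have : W = C (constantCoeff W) + ∑ o, X o * G o := by rw [← hG]; ring
  conv_lhs => rw [this]
  simp only [map_add, map_sum, map_mul, h0, zero_mul, Finset.sum_const_zero, add_zero, h.c, kap_C]

theorem coeff_lin_pow (γ : A) (n m : ℕ) :
    PowerSeries.coeff m ((PowerSeries.C γ + PowerSeries.X) ^ n) = γ ^ (n - m) * n.choose m := by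
  have : (PowerSeries.C γ + PowerSeries.X : PowerSeries A) ^ n =
      (((Polynomial.X + Polynomial.C γ) ^ n : Polynomial A) : PowerSeries A) := by
    rw [Polynomial.coe_pow, Polynomial.coe_add, Polynomial.coe_X, Polynomial.coe_C, add_comm]
  rw [this, Polynomial.coeff_coe, Polynomial.coeff_X_add_C_pow]

end mon

variable {k : Type} [Field k]

theorem pos_of_coeff {y : HahnSeries ℝ k} (h : ∀ g ≤ 0, y.coeff g = 0) : 0 < y.orderTop := by
  by_contra hc
  rw [not_lt] at hc
  obtain ⟨g, hg⟩ := WithTop.ne_top_iff_exists.1 (ne_top_of_le_ne_top WithTop.zero_ne_top hc)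
  refine HahnSeries.coeff_orderTop_ne hg.symm (h g ?_)
  rw [← hg] at hc
  exact_mod_cast hc

theorem quot {a b : HahnSeries ℝ k} (h : b.orderTop ≤ a.orderTop) :
    ∃ (c : k) (y : HahnSeries ℝ k), 0 < y.orderTop ∧ a = b * (algebraMap k _ c + y) := by
  by_cases hb : b = 0
  · subst hb
    refine ⟨0, 0, by simp, ?_⟩
    rw [zero_mul]
    simpa using h
  have e : a = b * (a / b) := (mul_div_cancel₀ a hb).symm
  have h0 : 0 ≤ (a / b).orderTop := by
    rw [e, HahnSeries.orderTop_mul] at h
    exact (WithTop.add_le_add_iff_left (HahnSeries.orderTop_ne_top.2 hb)).1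
      (by rwa [add_zero])
  refine ⟨(a / b).coeff 0, a / b - algebraMap k _ ((a / b).coeff 0), pos_of_coeff fun g hg => ?_,
    by rw [add_sub_cancel, ← e]⟩
  rw [HahnSeries.coeff_sub, HahnSeries.algebraMap_apply, Algebra.algebraMap_self_apply,
    HahnSeries.C_apply]
  rcases hg.eq_or_lt with rfl | hg
  · simp
  · rw [HahnSeries.coeff_single_of_ne hg.ne, sub_zero]
    exact HahnSeries.coeff_eq_zero_of_lt_orderTop (lt_of_lt_of_le (by exact_mod_cast hg) h0)

theorem quot_lt {a b : HahnSeries ℝ k} (h : b.orderTop < a.orderTop) :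
    ∃ y : HahnSeries ℝ k, 0 < y.orderTop ∧ a = b * y := by
  have hb : b ≠ 0 := by rintro rfl; simp at h
  have e : a = b * (a / b) := (mul_div_cancel₀ a hb).symm
  refine ⟨a / b, ?_, e⟩
  rw [e, HahnSeries.orderTop_mul] at h
  exact (WithTop.add_lt_add_iff_left (HahnSeries.orderTop_ne_top.2 hb)).1 (by rwa [add_zero])

variable {ι : Type} {U : Ultrafilter ι} {σ : Type} [Fintype σ] [DecidableEq σ]

theorem pull {S T : Stage k U (Option σ)} (c : Chart S T) {G : MvPowerSeries (Option σ) S.A}
    {M G' : MvPowerSeries (Option σ) T.A} (h1 : ∀ l, LM (c.Φ (X (some l))))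
    (h2 : LM (jac c.Φ)) (h3 : c.Φ G = M * G') (hM : LM M) (h : Concl T G') : Concl S G := by
  obtain ⟨R, d, k1, k3, k2⟩ := h
  refine ⟨R, c.comp d, ?_, ?_, fun l => lm_map k2 (h1 l)⟩
  · change UM (d.Φ (c.Φ G))
    rw [h3, map_mul]; exact um_mul (lm_map k2 hM) k1
  · change UM (jac (d.Φ.comp c.Φ))
    rw [jac_comp _ d.loc]; exact um_mul (lm_map k2 h2) k3

/-- the chart `z_N = z_l (γ + y)` -/
theorem chartA (S : Stage k U (Option σ)) (l : σ)
    (h : ∀ᶠ i in (U : Filter ι), (S.x i (some l)).orderTop ≤ (S.x i none).orderTop) :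
    ∃ (T : Stage k U (Option σ)) (c : Chart S T) (γ : T.A),
      c.Φ (X none) = X (some l) * (C γ + X none) ∧ ∀ m, c.Φ (X (some m)) = X (some m) := by
  have h1 : ∀ i, ∃ (c : k) (y : HahnSeries ℝ k), 0 < y.orderTop ∧
      ((S.x i (some l)).orderTop ≤ (S.x i none).orderTop →
        S.x i none = S.x i (some l) * (algebraMap k _ c + y)) := fun i => by
    by_cases hi : (S.x i (some l)).orderTop ≤ (S.x i none).orderTop
    · obtain ⟨c, y, h1, h2⟩ := quot hi
      exact ⟨c, y, h1, fun _ => h2⟩
    · exact ⟨0, 0, by simp, fun h => absurd h hi⟩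
  choose c y hy hc using h1
  obtain ⟨A', _, _, j, s', γ, g1, g2⟩ := adj (U : Filter ι) S.s c
  let x' : ι → Option σ → HahnSeries ℝ k := fun i o => o.elim (y i) fun m => S.x i (some m)
  have hp : ∀ i, Pos (x' i) := fun i o => by
    cases o
    exacts [hy i, S.pos i _]
  obtain ⟨ψ, k1, k2⟩ := exists_loc (τ := Option σ) j
    (fun o : Option σ => o.elim (X (some l) * (C γ + X none)) fun m => X (some m))
    (fun o => by cases o <;> simp)
  refine ⟨⟨A', s', x', g1, hp⟩, ⟨j, ψ, k1, (h.and g2).mono fun i hi => ⟨hi.2.1, fun o => ?_⟩⟩, γ,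
    k2 none, fun m => k2 (some m)⟩
  change S.x i o = ev (x' i) (map (s' i) (ψ (X o)))
  rw [k2]
  cases o with
  | none =>
    simp only [Option.elim_none, map_mul, map_add, map_X, map_C, ev_mul (hp i), ev_add, ev_X (hp i),
      ev_C (hp i), hi.2.2]
    exact hc i hi.1
  | some m => rw [Option.elim_some, map_X, ev_X (hp i)]; rfl

/-- the chart `z_l = z_N y` -/
theorem chartB (S : Stage k U (Option σ)) (l : σ)
    (h : ∀ᶠ i in (U : Filter ι), (S.x i none).orderTop < (S.x i (some l)).orderTop) :
    ∃ (T : Stage k U (Option σ)) (c : Chart S T), c.Φ (X none) = X none ∧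
      c.Φ (X (some l)) = X none * X (some l) ∧ ∀ m ≠ l, c.Φ (X (some m)) = X (some m) := by
  have h1 : ∀ i, ∃ y : HahnSeries ℝ k, 0 < y.orderTop ∧
      ((S.x i none).orderTop < (S.x i (some l)).orderTop → S.x i (some l) = S.x i none * y) :=
    fun i => by
      by_cases hi : (S.x i none).orderTop < (S.x i (some l)).orderTop
      · obtain ⟨y, h1, h2⟩ := quot_lt hi
        exact ⟨y, h1, fun _ => h2⟩
      · exact ⟨0, by simp, fun h => absurd h hi⟩
  choose y hy hc using h1
  let x' : ι → Option σ → HahnSeries ℝ k := fun i o => if o = some l then y i else S.x i o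
  have hp : ∀ i, Pos (x' i) := fun i o => by
    by_cases e : o = some l
    · simpa only [x', if_pos e] using hy i
    · simpa only [x', if_neg e] using S.pos i o
  obtain ⟨ψ, k1, k2⟩ := exists_loc (τ := Option σ) (RingHom.id S.A)
    (fun o : Option σ => if o = some l then X none * X (some l) else X o)
    (fun o => by split_ifs <;> simp)
  refine ⟨⟨S.A, S.s, x', S.gen, hp⟩, ⟨RingHom.id _, ψ, k1, h.mono fun i hi => ⟨rfl, fun o => ?_⟩⟩,
    (k2 none).trans (by simp), (k2 _).trans (by simp), fun m hm => (k2 _).trans (by simp [hm])⟩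
  change S.x i o = ev (x' i) (map (S.s i) (ψ (X o)))
  rw [k2]
  by_cases e : o = some l
  · subst e
    rw [if_pos rfl, map_mul, map_X, map_X, ev_mul (hp i), ev_X (hp i), ev_X (hp i)]
    simpa [x'] using hc i hi
  · rw [if_neg e, map_X, ev_X (hp i)]
    simp only [x', if_neg e]

end P283R.U.Lo

namespace P283R.U

open Lo

variable {k : Type} [Field k] {ι : Type} {U : Ultrafilter ι} {σ : Type} [Fintype σ] [DecidableEq σ]

/-- **the toric loop** -/
theorem loop [CharZero k] (d : ℕ)
    (ih : ∀ (S : Stage k U (Option σ)) (F : MvPowerSeries (Option σ) S.A),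
      Reg (d - 1) F → Concl S F)
    (β : σ →₀ ℕ) (S : Stage k U (Option σ)) (F : MvPowerSeries (Option σ) S.A) :
    Form d β F → Concl S F := by
  induction hn : Finsupp.degree β using Nat.strong_induction_on generalizing β S F with
  | _ n IH =>
  rintro ⟨a, W, j₀, hj, ha, hW, rfl⟩
  by_cases h0 : β = 0
  · subst h0
    refine ih _ _ ⟨j₀, by omega, ?_⟩
    rw [← coeff_kap]
    simp only [smul_zero, monomial_zero_eq_C_apply, map_one, one_mul, map_add, map_sum, map_mul,
      map_pow, kap_ren, kap_none, PowerSeries.coeff_C_mul, PowerSeries.coeff_X_pow,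
      PowerSeries.coeff_X_pow_mul']
    rw [if_neg (by omega), add_zero, Finset.sum_eq_single j₀]
    · simpa using ha
    · intro b _ hb
      rw [if_neg hb.symm, mul_zero]
    · intro h
      exact absurd (Finset.mem_range.2 (by omega)) h
  obtain ⟨l, hl⟩ : ∃ l, β l ≠ 0 := by
    by_contra hc
    push Not at hc
    exact h0 (Finsupp.ext hc)
  obtain ⟨β', rfl⟩ : ∃ β', β = β' + Finsupp.single l 1 :=
    ⟨β - Finsupp.single l 1, (tsub_add_cancel_of_le (Finsupp.single_le_iff.2
      (Nat.one_le_iff_ne_zero.2 hl))).symm⟩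
  have hd : Finsupp.degree β' < n := by
    rw [← hn, map_add, Finsupp.degree_single]; omega
  rcases Ultrafilter.eventually_or.1 (Filter.Eventually.of_forall (f := (U : Filter ι)) fun i =>
    le_or_gt (S.x i (some l)).orderTop (S.x i none).orderTop) with h | h
  · obtain ⟨T, c, γ, k0, k1⟩ := chartA S l h
    have hr : ∀ b, c.Φ (ren σ S.A b) = ren σ T.A (map c.ρ b) :=
      comp_ren c.loc (loc_map c.ρ) fun i => by rw [k1, map_X, ren_X]
    refine pull c (M := X (some l) ^ d) (G' := ∑ j ∈ Finset.range (d - 1),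
      ren σ T.A (monomial ((d - j) • β') 1 * map c.ρ (a j)) * (C γ + X none) ^ j +
        (C γ + X none) ^ d * c.Φ W) (fun m => by rw [k1]; exact lm_X m) ?_ ?_ (lm_X_pow l d) ?_
    · rw [jac_col c.Φ (map c.ρ) (fun i => by rw [k1, map_X, ren_X]), jac_of_X _ (map_X _), k0,
        map_one, mul_one, Derivation.leibniz, pderiv_X_of_ne (by simp), map_add, pderiv_C,
        pderiv_X_self]
      simpa using lm_X l
    · rw [map_add, map_sum, mul_add, Finset.mul_sum, map_mul, map_pow, k0, mul_pow, mul_assoc]
      congr 1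
      refine Finset.sum_congr rfl fun j hj' => ?_
      have e : d = (d - j) + j := by have := Finset.mem_range.1 hj'; omega
      rw [map_mul, map_pow, k0, hr, mon_split]
      simp only [map_mul, map_monomial, map_one, map_pow, map_X, ren_X, mul_pow]
      conv_rhs => rw [e, pow_add, ← e]
      ring
    · by_cases hγ : γ = 0
      · subst hγ
        refine IH _ hd β' T _ rfl ⟨fun j => map c.ρ (a j), c.Φ W, j₀, hj, ?_, hW.map _, by simp⟩
        rw [constantCoeff_map]
        exact fun e => ha (c.inj (by rw [e, map_zero]))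
      · refine ih _ _ ⟨d - 1, le_rfl, ?_⟩
        have hk : kap σ T.A (c.Φ W) = PowerSeries.C (c.ρ (constantCoeff W)) :=
          kap_loc c.loc (fun o => by
            cases o
            · rw [k0, map_mul, kap_some, zero_mul]
            · rw [k1, kap_some]) W
        rw [← coeff_kap, map_add, map_add, map_sum, map_sum, Finset.sum_eq_zero, zero_add, map_mul,
          hk, PowerSeries.coeff_mul_C, map_pow, map_add, kap_C, kap_none, coeff_lin_pow]
        · refine mul_ne_zero (mul_ne_zero (pow_ne_zero _ hγ) ?_)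
            ((isUnit_constantCoeff _ hW).map c.ρ).ne_zero
          exact Nat.cast_ne_zero.2 (Nat.choose_pos (Nat.sub_le d 1)).ne'
        · intro j hj'
          rw [map_mul, kap_ren, PowerSeries.coeff_C_mul, map_pow, map_add, kap_C, kap_none,
            coeff_lin_pow, Nat.choose_eq_zero_of_lt (Finset.mem_range.1 hj')]
          simp
  · obtain ⟨T, c, k0, k1, k2⟩ := chartB S l h
    refine ⟨T, c, ?_, ?_, fun m => ?_⟩
    · have e : c.Φ (∑ j ∈ Finset.range (d - 1),
          ren σ S.A (monomial ((d - j) • (β' + Finsupp.single l 1)) 1 * a j) * X none ^ j +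
            X none ^ d * W) = X none ^ d * (∑ j ∈ Finset.range (d - 1),
          c.Φ (ren σ S.A (monomial ((d - j) • β') 1 * a j)) * X (some l) ^ (d - j) + c.Φ W) := by
        rw [map_add, map_sum, mul_add, Finset.mul_sum, map_mul, map_pow, k0]
        congr 1
        refine Finset.sum_congr rfl fun j hj' => ?_
        have e : d = (d - j) + j := by have := Finset.mem_range.1 hj'; omega
        rw [mon_split]
        simp only [map_mul, map_pow, ren_X, k0, k1, mul_pow]
        conv_rhs => rw [e, pow_add, ← e]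
        ring
      rw [e]
      refine um_mul (um_pow (um_X _) _) (um_unit ?_)
      rw [isUnit_iff_constantCoeff, map_add, map_sum, Finset.sum_eq_zero, zero_add]
      · exact isUnit_constantCoeff _ (hW.map _)
      · intro j hj'
        have : d - j ≠ 0 := by have := Finset.mem_range.1 hj'; omega
        simp [this]
    · rw [jac_row c.Φ k0]
      · refine um_prod fun m _ => ?_
        by_cases e : m = l
        · subst e
          rw [k1, Derivation.leibniz, pderiv_X_self, pderiv_X_of_ne (by simp)]
          simpa using um_X none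
        · rw [k2 m e, pderiv_X_self]
          exact um_unit isUnit_one
      · intro m m' hm
        by_cases e : m = l
        · subst e
          rw [k1, Derivation.leibniz, pderiv_X_of_ne (by simpa using hm), pderiv_X_of_ne (by simp)]
          simp
        · rw [k2 m e, pderiv_X_of_ne (by simpa using hm)]
    · by_cases e : m = l
      · subst e
        rw [k1]
        exact um_mul (um_X _) (um_X _)
      · rw [k2 m e]
        exact um_X _

end P283R.U
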