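import Vale.Agent.P283R.U.Fr
import Vale.Agent.P283R.U.Tsch

/-!
# Monomialisation along an ultra-sequence of arcs: reduction to the normal form
-/

open MvPowerSeries Vale.Agent.P283R.Co

attribute [-instance] HahnSeries.powerSeriesAlgebra

noncomputable section

namespace P283R.U

variable {k : Type} [Field k] {ι : Type} {U : Ultrafilter ι} {σ : Type} [Fintype σ]
  [DecidableEq σ]

/-- a monic polynomial in the last variable without second term -/
def pf {A : Type} [CommRing A] (d : ℕ) (a : ℕ → MvPowerSeries σ A) :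
    MvPowerSeries (Option σ) A :=
  ∑ j ∈ Finset.range (d - 1), ren σ A (a j) * X none ^ j + X none ^ d

theorem stepA [CharZero k] (d : ℕ) (hd : 0 < d) (S : Stage k U (Option σ))
    (F : MvPowerSeries (Option σ) S.A) (h : coeff (Finsupp.single none d) F ≠ 0)
    (hl : ∀ i < d, coeff (Finsupp.single none i) F = 0) :
    ∃ (T : Stage k U (Option σ)) (c : Chart S T) (u : MvPowerSeries (Option σ) T.A)
      (a : ℕ → MvPowerSeries σ T.A), Low c ∧ IsUnit u ∧ IsUnit ((d.factorial : ℕ) : T.A) ∧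
      c.Φ F = u * pf d a := by
  obtain ⟨T, c, hc, -, hu⟩ := exists_inv S (a := coeff (Finsupp.single none d) F *
    ((d.factorial : ℕ) : S.A)) (mul_ne_zero h (Nat.cast_ne_zero.2 d.factorial_ne_zero))
  rw [map_mul, map_natCast] at hu
  have hf : IsUnit ((d.factorial : ℕ) : T.A) := isUnit_of_mul_isUnit_right hu
  have hE : IsUnit (d : T.A) :=
    isUnit_of_dvd_unit (Nat.cast_dvd_cast (Nat.dvd_factorial hd le_rfl)) hf
  obtain ⟨g, a, u, hg, -, hu', H⟩ := tsch (map c.ρ F) d hd hE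
    (by rw [coeff_map]; exact isUnit_of_mul_isUnit_left hu)
    (fun i hi => by rw [coeff_map, hl i hi, map_zero])
  have hy : ∀ i, Pos fun o : Option σ => o.elim
      (T.x i none - ev (fun j => T.x i (some j)) (map (T.s i) g)) fun j => T.x i (some j) := by
    intro i
    obtain ⟨δ, hδ, hx⟩ := (T.pos i).exists_ge
    refine pos_of_ge hδ ?_
    rintro (_ | j)
    · exact (hx none).sub (ge_ev_one hδ (fun j => hx (some j))
        (by rw [constantCoeff_map, hg, map_zero]))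
    · exact hx (some j)
  obtain ⟨c₂, h1, h2⟩ := exists_chart T _ hy
    (fun o => o.elim (X none + ren σ T.A g) fun j => X (some j)) (by
      rintro (_ | j)
      · simp [loc_ren.cc, hg]
      · simp) (Filter.Eventually.of_forall fun i => by
      rintro (_ | j)
      · show _ = ev _ (map (T.s i) (X none + ren σ T.A g))
        rw [map_add, ev_add, ev_ren _ (hy i), map_X, ev_X (hy i)]
        exact (sub_add_cancel _ _).symm
      · show _ = ev _ (map (T.s i) (X (some j)))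
        rw [map_X, ev_X (hy i)]
        rfl)
  refine ⟨_, c.comp c₂, u, a, Low.comp (low_of_X fun j => by rw [hc, map_X])
    (low_of_col (fun j => h2 (some j)) ?_), hu', hf, ?_⟩
  · rw [h2 none]
    show LM (pderiv T.A none (X none + ren σ T.A g))
    rw [map_add, pderiv_X_self, pderiv_none_ren, add_zero]
    exact LM.one
  · show c₂.Φ (c.Φ F) = _
    rw [hc, H c₂.Φ (h1 ▸ c₂.loc) (h2 none) fun j => h2 (some j), pf, add_comm]

omit [Fintype σ] [DecidableEq σ] in
theorem map_mon_pow {A B : Type} [CommRing A] [CommRing B]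
    (ψ : MvPowerSeries σ A →+* MvPowerSeries σ B) {n : ℕ} (h : ∀ j, ψ (X j) = X j ^ n)
    (α : σ →₀ ℕ) : ψ (monomial α 1) = monomial (n • α) 1 := by
  have : (monomial (n • α) (1 : B) : MvPowerSeries σ B) = monomial α 1 ^ n := by
    rw [monomial_pow, one_pow]
  rw [this, mon_eq_prod, mon_eq_prod, map_prod, ← Finset.prod_pow]
  exact Finset.prod_congr rfl fun j _ => by rw [map_pow, h, ← pow_mul, ← pow_mul, mul_comm]

/-- the power substitution -/
theorem powc [IsAlgClosed k] [CharZero k] (T : Stage k U σ) {n : ℕ} (hn : 0 < n)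
    (hu : IsUnit (n : T.A)) :
    ∃ (W : Stage k U σ) (c : Chart T W), UM (jac c.Φ) ∧ ∀ j, c.Φ (X j) = X j ^ n := by
  choose y hy using fun i j => exists_root (T.x i j) hn
  have hp : ∀ i, Pos (y i) := fun i j => by
    have := T.pos i j
    rw [← hy, orderTop_pow] at this
    by_contra hh
    exact absurd (nsmul_nonpos (not_lt.1 hh) n) (not_le.2 this)
  obtain ⟨c, -, h2⟩ := exists_chart T y hp (fun j => X j ^ n)
    (fun j => by simp [hn.ne']) (Filter.Eventually.of_forall fun i j => by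
      rw [map_pow, map_X, ← evH_apply (hp i), map_pow, evH_apply, ev_X (hp i), hy])
  refine ⟨_, c, ?_, h2⟩
  rw [jac_diag]
  · refine UM.prod fun j _ => ?_
    rw [h2, pderiv_pow, pderiv_X_self, mul_one]
    refine (UM.unit ?_).mul ((UM.X j).pow _)
    rw [← map_natCast (C : T.A →+* MvPowerSeries σ T.A)]
    exact hu.map _
  · intro i l e
    rw [h2, pderiv_pow, pderiv_X_of_ne e, mul_zero]

theorem stepB [IsAlgClosed k] [CharZero k] (hU : UAt k U σ) (d : ℕ) (T : Stage k U σ)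
    (hf : IsUnit ((d.factorial : ℕ) : T.A)) (a : ℕ → MvPowerSeries σ T.A)
    (hJ : ∃ j, j + 1 < d ∧ a j ≠ 0) :
    ∃ (W : Stage k U σ) (c : Chart T W) (β : σ →₀ ℕ) (b : ℕ → MvPowerSeries σ W.A) (j₀ : ℕ),
      UM (jac c.Φ) ∧ (∀ j, UM (c.Φ (X j))) ∧ j₀ + 1 < d ∧ constantCoeff (b j₀) ≠ 0 ∧
      ∀ j < d - 1, c.Φ (a j) = monomial ((d - j) • β) 1 * b j := by
  classical
  set J := (Finset.range (d - 1)).filter fun j => a j ≠ 0 with hJd
  set q : ℕ → ℕ := fun j => d.factorial / (d - j) with hq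
  set D := (J ×ˢ J).filter fun p => a p.1 ^ q p.1 - a p.2 ^ q p.2 ≠ 0 with hD
  have hg : (∏ j ∈ J, a j) * ∏ p ∈ D, (a p.1 ^ q p.1 - a p.2 ^ q p.2) ≠ 0 :=
    mul_ne_zero (Finset.prod_ne_zero_iff.2 fun j hj => (Finset.mem_filter.1 hj).2)
      (Finset.prod_ne_zero_iff.2 fun p hp => (Finset.mem_filter.1 hp).2)
  obtain ⟨T₀, c₀, h1, h2, h3⟩ := hU T _ hg
  have h4 : ∀ j ∈ J, UM (c₀.Φ (a j)) := fun j hj =>
    h1.of_dvd (map_dvd _ ((Finset.dvd_prod_of_mem _ hj).mul_right _))
  have h5 : ∀ p ∈ D, UM (c₀.Φ (a p.1 ^ q p.1 - a p.2 ^ q p.2)) := fun p hp =>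
    h1.of_dvd (map_dvd _ ((Finset.dvd_prod_of_mem
      (fun p : ℕ × ℕ => a p.1 ^ q p.1 - a p.2 ^ q p.2) hp).mul_left _))
  choose! u α hu hα using h4
  have h6 : ∀ j ∈ J, c₀.Φ (a j ^ q j) = u j ^ q j * monomial (q j • α j) 1 := fun j hj => by
    rw [map_pow, hα j hj, mul_pow, monomial_pow, one_pow]
  have h7 : ∀ j ∈ J, ∀ l ∈ J, q j • α j ≤ q l • α l ∨ q l • α l ≤ q j • α j := by
    intro j hj l hl
    by_cases e : a j ^ q j - a l ^ q l = 0
    · rw [sub_eq_zero] at e
      have := h6 j hj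
      rw [e, h6 l hl] at this
      exact Or.inr (Vale.Agent.P283M.U.mon_uniq ((hu l hl).pow _) ((hu j hj).pow _) this).le
    · obtain ⟨w, γ, hw, e'⟩ := h5 (j, l)
        (Finset.mem_filter.2 ⟨Finset.mem_product.2 ⟨hj, hl⟩, e⟩)
      rw [map_sub, h6 j hj, h6 l hl] at e'
      exact Vale.Agent.P283M.U.diff_le ((hu j hj).pow _) ((hu l hl).pow _) hw e'
  have hne : J.Nonempty := by
    obtain ⟨j, hj, hj'⟩ := hJ
    exact ⟨j, Finset.mem_filter.2 ⟨Finset.mem_range.2 (by omega), hj'⟩⟩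
  obtain ⟨j₀, hj₀, hmin⟩ := Finset.exists_minimalFor (fun j => q j • α j) J hne
  have h8 : ∀ j ∈ J, q j₀ • α j₀ ≤ q j • α j := fun j hj =>
    (h7 j₀ hj₀ j hj).elim id fun h => hmin hj h
  obtain ⟨W, c₁, h9, h10⟩ := powc T₀ d.factorial_pos (by simpa using hf.map c₀.ρ)
  have hx₁ : ∀ j, UM (c₁.Φ (X j)) := fun j => by rw [h10]; exact (UM.X j).pow _
  have hj₀' := Finset.mem_range.1 (Finset.mem_filter.1 hj₀).1
  refine ⟨W, c₀.comp c₁, q j₀ • α j₀, fun j => if j ∈ J then
    c₁.Φ (u j) * monomial ((d - j) • (q j • α j - q j₀ • α j₀)) 1 else 0, j₀, ?_,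
    fun j => (h3 j).map _ hx₁, by omega, ?_, fun j hj => ?_⟩
  · show UM (jac (c₁.Φ.comp c₀.Φ))
    rw [jac_comp _ c₁.loc]
    exact (h2.map _ hx₁).mul h9
  · simp only [if_pos hj₀, tsub_self, smul_zero, monomial_zero_one, mul_one]
    exact (isUnit_iff_constantCoeff.1 ((hu j₀ hj₀).map c₁.Φ)).ne_zero
  · show c₁.Φ (c₀.Φ (a j)) = _
    by_cases hj' : j ∈ J
    · simp only [if_pos hj']
      rw [hα j hj', map_mul, map_mon_pow _ h10, mul_left_comm, monomial_mul_monomial, one_mul,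
        ← smul_add, add_tsub_cancel_of_le (h8 j hj'), smul_smul, hq,
        Nat.mul_div_cancel' (Nat.dvd_factorial (by omega) (Nat.sub_le d j))]
    · have : a j = 0 := by
        by_contra hh
        exact hj' (Finset.mem_filter.2 ⟨Finset.mem_range.2 hj, hh⟩)
      simp only [if_neg hj', this, map_zero, mul_zero]

theorem step [IsAlgClosed k] [CharZero k] (hU : UAt k U σ) (d : ℕ) (hd : 0 < d)
    (S : Stage k U (Option σ)) (F : MvPowerSeries (Option σ) S.A)
    (h : coeff (Finsupp.single none d) F ≠ 0)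
    (hl : ∀ i < d, coeff (Finsupp.single none i) F = 0) :
    Concl S F ∨ ∃ (T : Stage k U (Option σ)) (c : Chart S T) (L : MvPowerSeries (Option σ) T.A)
      (β : σ →₀ ℕ) (F₁ : MvPowerSeries (Option σ) T.A),
      Low c ∧ LM L ∧ c.Φ F = L * F₁ ∧ Form d β F₁ := by
  obtain ⟨T, c, u, a, hc, hu, hf, e⟩ := stepA d hd S F h hl
  by_cases hJ : ∃ j, j + 1 < d ∧ a j ≠ 0
  · obtain ⟨W, c₀, β, b, j₀, h1, h2, h3, h4, h5⟩ := stepB hU d T.res hf a hJ
    obtain ⟨hy, c₁, h6, -, h7, h8⟩ := lift T c₀ h1 h2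
    refine Or.inr ⟨_, c.comp c₁, c₁.Φ u, β, c₁.Φ (pf d a), hc.comp h6, LM.unit (hu.map _), ?_,
      b, 1, j₀, h3, h4, isUnit_one, ?_⟩
    · show c₁.Φ (c.Φ F) = _
      rw [e, map_mul]
    · rw [pf, map_add, map_sum, map_pow, h7, mul_one]
      congr 1
      refine Finset.sum_congr rfl fun j hj => ?_
      rw [map_mul, map_pow, h7, h8, h5 j (Finset.mem_range.1 hj)]
  · refine Or.inl (pull hc (LM.unit hu) e (concl_of_um ?_))
    rw [pf, Finset.sum_eq_zero, zero_add]
    · exact (UM.X none).pow _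
    · intro j hj
      have : a j = 0 := by
        by_contra hh
        exact hJ ⟨j, by have := Finset.mem_range.1 hj; omega, hh⟩
      rw [this, map_zero, zero_mul]

end P283R.U
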