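import Vale.Agent.P283R.U.Ind
import Vale.Agent.P283R.U.Loop
import Vale.Agent.P283R.U.Step
import Vale.Agent.P283R.U.Eqv

/-!
# Monomialisation along an ultra-sequence of arcs: the theorem
-/

namespace P283R.U

theorem uStm : UStm :=
  uStm_of fun _ _ _ _ _ _ σ _ _ =>
    uAt_all (fun _ _ _ => loop) (fun _ _ _ => step) (fun _ _ _ _ _ _ => uAt_equiv)
      (fun _ _ _ _ => uAt_empty) σ

end P283R.U
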