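import Vale.Agent.P283R.U.St

/-!
# Monomialisation along an ultra-sequence of arcs: bookkeeping of charts
-/

open MvPowerSeries Vale.Agent.P283R.Co

noncomputable section

namespace P283R.U

section um

variable {σ τ A B : Type} [CommRing A] [CommRing B]

theorem UM.unit {G : MvPowerSeries σ A} (h : IsUnit G) : UM G := ⟨G, 0, h, by simp⟩

theorem UM.one : UM (1 : MvPowerSeries σ A) := UM.unit isUnit_one

theorem UM.mul {G H : MvPowerSeries σ A} (h : UM G) (h' : UM H) : UM (G * H) := by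
  obtain ⟨u, m, hu, rfl⟩ := h
  obtain ⟨v, n, hv, rfl⟩ := h'
  refine ⟨u * v, m + n, hu.mul hv, ?_⟩
  rw [mul_mul_mul_comm, monomial_mul_monomial, one_mul]

theorem UM.pow {G : MvPowerSeries σ A} (h : UM G) (n : ℕ) : UM (G ^ n) := by
  induction n with
  | zero => simpa using UM.one
  | succ n ih => rw [pow_succ]; exact ih.mul h

theorem UM.prod {ι : Type} {s : Finset ι} {G : ι → MvPowerSeries σ A} (h : ∀ i ∈ s, UM (G i)) :
    UM (∏ i ∈ s, G i) :=
  Finset.prod_induction _ _ (fun _ _ => UM.mul) UM.one h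

theorem UM.mon (m : σ →₀ ℕ) : UM (monomial m (1 : A)) := ⟨1, m, isUnit_one, by simp⟩

theorem UM.X (j : σ) : UM (X j : MvPowerSeries σ A) := UM.mon _

theorem UM.of_mul [IsDomain A] {G H : MvPowerSeries σ A} (h : UM (G * H)) : UM G := by
  obtain ⟨u, m, hu, h⟩ := h
  exact Vale.Agent.P283M.U.mon_of_mul hu h

theorem UM.of_dvd [IsDomain A] {G H : MvPowerSeries σ A} (h : UM H) (hd : G ∣ H) : UM G := by
  obtain ⟨c, rfl⟩ := hd
  exact h.of_mul

theorem UM.ne_zero [Nontrivial A] {G : MvPowerSeries σ A} (h : UM G) : G ≠ 0 := by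
  obtain ⟨u, m, hu, rfl⟩ := h
  intro h0
  exact Vale.Agent.P283M.U.coeff_unit_mon hu m (by rw [h0, map_zero])

theorem mon_eq_prod (m : σ →₀ ℕ) :
    (monomial m (1 : A) : MvPowerSeries σ A) = ∏ j ∈ m.support, MvPowerSeries.X j ^ m j := by
  rw [← MvPolynomial.coe_monomial, MvPolynomial.monomial_eq, MvPolynomial.C_1, one_mul,
    Finsupp.prod, ← MvPolynomial.coeToMvPowerSeries.ringHom_apply, map_prod]
  simp

theorem UM.map {G : MvPowerSeries σ A} (h : UM G)
    (ψ : MvPowerSeries σ A →+* MvPowerSeries τ B) (hψ : ∀ j, UM (ψ (MvPowerSeries.X j))) :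
    UM (ψ G) := by
  obtain ⟨u, m, hu, rfl⟩ := h
  rw [map_mul, mon_eq_prod, map_prod]
  exact (UM.unit (hu.map ψ)).mul (UM.prod fun j _ => by rw [map_pow]; exact (hψ j).pow _)

theorem UM.ren {G : MvPowerSeries σ A} (h : UM G) : LM (ren σ A G) := by
  obtain ⟨u, m, hu, rfl⟩ := h
  exact ⟨_, m, hu.map (U.ren σ A), map_mul _ _ _⟩

theorem LM.unit {G : MvPowerSeries (Option σ) A} (h : IsUnit G) : LM G := ⟨G, 0, h, by simp⟩

theorem LM.one : LM (1 : MvPowerSeries (Option σ) A) := LM.unit isUnit_one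

theorem LM.mul {G H : MvPowerSeries (Option σ) A} (h : LM G) (h' : LM H) : LM (G * H) := by
  obtain ⟨u, m, hu, rfl⟩ := h
  obtain ⟨v, n, hv, rfl⟩ := h'
  refine ⟨u * v, m + n, hu.mul hv, ?_⟩
  rw [mul_mul_mul_comm, ← map_mul, monomial_mul_monomial, one_mul]

theorem LM.pow {G : MvPowerSeries (Option σ) A} (h : LM G) (n : ℕ) : LM (G ^ n) := by
  induction n with
  | zero => simpa using LM.one
  | succ n ih => rw [pow_succ]; exact ih.mul h

theorem LM.prod {ι : Type} {s : Finset ι} {G : ι → MvPowerSeries (Option σ) A}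
    (h : ∀ i ∈ s, LM (G i)) : LM (∏ i ∈ s, G i) :=
  Finset.prod_induction _ _ (fun _ _ => LM.mul) LM.one h

theorem LM.X (j : σ) : LM (X (some j) : MvPowerSeries (Option σ) A) := by
  rw [← ren_X]; exact (UM.X j).ren

theorem LM.ind {G : MvPowerSeries (Option σ) A} (h : LM G) {R : Type} [CommRing R]
    (ψ : MvPowerSeries (Option σ) A →+* R) (p : R → Prop) (h1 : ∀ u, IsUnit u → p u)
    (h2 : ∀ a b, p a → p b → p (a * b)) (h3 : ∀ j, p (ψ (MvPowerSeries.X (some j)))) :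
    p (ψ G) := by
  obtain ⟨u, m, hu, rfl⟩ := h
  rw [map_mul, mon_eq_prod, map_prod, map_prod]
  refine h2 _ _ (h1 _ (hu.map ψ)) (Finset.prod_induction _ p h2 (h1 _ isUnit_one) fun j _ => ?_)
  rw [map_pow, map_pow, ren_X]
  induction m j with
  | zero => simpa using h1 _ isUnit_one
  | succ n ih => rw [pow_succ]; exact h2 _ _ ih (h3 j)

theorem LM.um {G : MvPowerSeries (Option σ) A} (h : LM G) : UM G :=
  h.ind (RingHom.id _) UM (fun _ => UM.unit) (fun _ _ => UM.mul) fun _ => UM.X _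

theorem LM.map {G : MvPowerSeries (Option σ) A} (h : LM G)
    (ψ : MvPowerSeries (Option σ) A →+* MvPowerSeries (Option τ) B)
    (hψ : ∀ j, LM (ψ (MvPowerSeries.X (some j)))) : LM (ψ G) :=
  h.ind ψ LM (fun _ => LM.unit) (fun _ _ => LM.mul) hψ

theorem LM.map_um {G : MvPowerSeries (Option σ) A} (h : LM G)
    (ψ : MvPowerSeries (Option σ) A →+* MvPowerSeries τ B)
    (hψ : ∀ j, UM (ψ (MvPowerSeries.X (some j)))) : UM (ψ G) :=
  h.ind ψ UM (fun _ => UM.unit) (fun _ _ => UM.mul) hψ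

end um

variable {k : Type} [Field k] {ι : Type} {U : Ultrafilter ι} {σ : Type} [Fintype σ]

/-- a chart from the images of the variables -/
def mkChart {S T : Stage k U σ} (ρ : S.A →+* T.A) (φ : σ → MvPowerSeries σ T.A)
    (h : ∀ j, constantCoeff (φ j) = 0)
    (rel : ∀ᶠ i in (U : Filter ι), (T.s i).comp ρ = S.s i ∧
      ∀ j, S.x i j = ev (T.x i) (map (T.s i) (φ j))) : Chart S T where
  ρ := ρ
  Φ := sb ρ φ h
  loc := loc_sb ρ φ h
  rel := rel.mono fun _ hi => ⟨hi.1, fun j => by rw [sb_X]; exact hi.2 j⟩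

/-- the same constants with other arcs -/
abbrev Stage.mv {τ : Type} (S : Stage k U σ) (y : ι → τ → HahnSeries ℝ k) (hy : ∀ i, Pos (y i)) :
    Stage k U τ :=
  ⟨S.A, S.s, y, S.gen, hy⟩

/-- a chart over the same constants -/
theorem exists_chart (S : Stage k U σ) (y : ι → σ → HahnSeries ℝ k) (hy : ∀ i, Pos (y i))
    (φ : σ → MvPowerSeries σ S.A) (h : ∀ j, constantCoeff (φ j) = 0)
    (rel : ∀ᶠ i in (U : Filter ι), ∀ j, S.x i j = ev (y i) (map (S.s i) (φ j))) :
    ∃ c : Chart S (S.mv y hy), c.ρ = RingHom.id _ ∧ ∀ j, c.Φ (X j) = φ j :=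
  ⟨mkChart (T := S.mv y hy) (RingHom.id _) φ h (rel.mono fun _ hi => ⟨rfl, hi⟩), rfl,
    fun j => sb_X _ _ h j⟩

/-- adjoining one constant -/
theorem exists_adj (S : Stage k U σ) (c : ι → k) :
    ∃ (T : Stage k U σ) (d : Chart S T) (γ : T.A), (∀ j, d.Φ (X j) = X j) ∧ T.x = S.x ∧
      ∀ᶠ i in (U : Filter ι), T.s i γ = c i := by
  obtain ⟨B, _, _, j, t, γ, hg, h⟩ := Vale.Agent.P283M.U.adj (U : Filter ι) S.s c
  exact ⟨⟨B, t, S.x, hg, S.pos⟩, ⟨j, map j, loc_map j, h.mono fun i hi => ⟨hi.1, fun l => by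
    simp [ev_X (S.pos i)]⟩⟩, γ, fun l => map_X _ _, rfl, h.mono fun _ hi => hi.2⟩

/-- inverting one constant -/
theorem exists_inv (S : Stage k U σ) {a : S.A} (ha : a ≠ 0) :
    ∃ (T : Stage k U σ) (d : Chart S T), d.Φ = map d.ρ ∧ T.x = S.x ∧ IsUnit (d.ρ a) := by
  obtain ⟨B, _, _, j, t, hg, hu, h⟩ := Vale.Agent.P283M.U.adj_unit U S.s S.gen ha
  exact ⟨⟨B, t, S.x, hg, S.pos⟩, ⟨j, map j, loc_map j, h.mono fun i hi => ⟨hi, fun l => by
    simp [ev_X (S.pos i)]⟩⟩, rfl, rfl, hu⟩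

/-- forgetting the last variable -/
abbrev Stage.res (S : Stage k U (Option σ)) : Stage k U σ :=
  S.mv (fun i j => S.x i (some j)) fun i j => S.pos i (some j)

theorem ev_ren {A : Type} [CommRing A] (t : A →+* k) {y : Option σ → HahnSeries ℝ k} (hy : Pos y)
    (F : MvPowerSeries σ A) :
    ev y (map t (ren σ A F)) = ev (fun j => y (some j)) (map t F) := by
  rw [loc_ren.ev_map t hy, RingHom.comp_id]
  simp only [ren_X, map_X, ev_X hy]

variable [DecidableEq σ]

theorem Low.comp {S T W : Stage k U (Option σ)} {c : Chart S T} {d : Chart T W} (hc : Low c)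
    (hd : Low d) : Low (c.comp d) :=
  ⟨by
    show LM (jac (d.Φ.comp c.Φ))
    rw [jac_comp _ d.loc]
    exact (hc.1.map _ hd.2).mul hd.1, fun j => (hc.2 j).map _ hd.2⟩

theorem low_of_X {S T : Stage k U (Option σ)} {c : Chart S T} (h : ∀ j, c.Φ (X j) = X j) :
    Low c :=
  ⟨by rw [jac_of_X _ h]; exact LM.one, fun j => by rw [h]; exact LM.X j⟩

/-- a chart that fixes the first variables -/
theorem low_of_col {S T : Stage k U (Option σ)} {c : Chart S T}
    (h : ∀ j, c.Φ (X (some j)) = X (some j)) (h0 : LM (pderiv T.A none (c.Φ (X none)))) :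
    Low c :=
  ⟨by
    rw [jac_col c.Φ (map c.ρ) fun j => by rw [h, map_X, ren_X],
      jac_of_X _ fun j => map_X _ _, map_one, mul_one]
    exact h0, fun j => by rw [h]; exact LM.X j⟩

theorem pull {S T : Stage k U (Option σ)} {c : Chart S T} (hc : Low c)
    {F : MvPowerSeries (Option σ) S.A} {L F₁ : MvPowerSeries (Option σ) T.A} (hL : LM L)
    (h : c.Φ F = L * F₁) (h₁ : Concl T F₁) : Concl S F := by
  obtain ⟨W, d, h1, h2, h3⟩ := h₁
  refine ⟨W, c.comp d, ?_, ?_, fun j => (hc.2 j).map_um _ h3⟩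
  · show UM (d.Φ (c.Φ F))
    rw [h, map_mul]
    exact (hL.map_um _ h3).mul h1
  · show UM (jac (d.Φ.comp c.Φ))
    rw [jac_comp _ d.loc]
    exact (hc.1.map_um _ h3).mul h2

theorem pull_one {S T : Stage k U (Option σ)} {c : Chart S T} (hc : Low c)
    {F : MvPowerSeries (Option σ) S.A} (h₁ : Concl T (c.Φ F)) : Concl S F :=
  pull hc LM.one (one_mul _).symm h₁

theorem concl_of_um {S : Stage k U (Option σ)} {F : MvPowerSeries (Option σ) S.A} (h : UM F) :
    Concl S F :=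
  ⟨S, Chart.refl S, h, by
    show UM (jac (RingHom.id _))
    rw [jac_of_X _ fun _ => rfl]; exact UM.one, fun _ => UM.X _⟩

/-- a chart in the first variables lifts -/
theorem lift (S : Stage k U (Option σ)) {T : Stage k U σ} (c : Chart S.res T)
    (hj : UM (jac c.Φ)) (hx : ∀ j, UM (c.Φ (X j))) :
    ∃ (hy : ∀ i, Pos fun o : Option σ => o.elim (S.x i none) (T.x i))
      (d : Chart S (T.mv _ hy)), Low d ∧ d.ρ = c.ρ ∧ d.Φ (X none) = X none ∧
      ∀ a, d.Φ (ren σ S.A a) = ren σ T.A (c.Φ a) := by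
  have hy : ∀ i, Pos fun o : Option σ => o.elim (S.x i none) (T.x i) := fun i o => by
    cases o with
    | none => exact S.pos i none
    | some j => exact T.pos i j
  have h0 : ∀ o : Option σ, constantCoeff
      (o.elim (X none) fun j => ren σ T.A (c.Φ (X j)) : MvPowerSeries (Option σ) T.A) = 0 := by
    rintro (_ | j)
    · simp
    · exact loc_ren.cc _ |>.trans (c.loc.x j)
  let d : Chart S (T.mv _ hy) := mkChart (T := T.mv _ hy) c.ρ _ h0 (c.rel.mono fun i hi =>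
    ⟨hi.1, by
      rintro (_ | j)
      · exact ((congrArg _ (map_X _ _)).trans (ev_X (hy i) none)).symm
      · exact (hi.2 j).trans (ev_ren (T.s i) (hy i) _).symm⟩)
  have e0 : d.Φ (X none) = X none := sb_X _ _ h0 none
  have e1 : ∀ j, d.Φ (X (some j)) = ren σ T.A (c.Φ (X j)) := fun j => sb_X _ _ h0 (some j)
  refine ⟨hy, d, ⟨?_, fun j => ?_⟩, rfl, e0, comp_ren d.loc c.loc e1⟩
  · rw [jac_col d.Φ c.Φ e1, e0, pderiv_X_self, one_mul]
    exact hj.ren
  · rw [e1]; exact (hx j).ren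

end P283R.U
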