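import Vale.Agent.P283R.U.Fr

/-!
# Monomialisation along an ultra-sequence of arcs: the two inductions
-/

open MvPowerSeries Vale.Agent.P283R.Co

noncomputable section

namespace P283R.U

variable {k : Type} [Field k] {ι : Type} {U : Ultrafilter ι} {σ : Type} [Fintype σ]
  [DecidableEq σ]

/-- the toric loop -/
def LoopStm (k : Type) [Field k] {ι : Type} (U : Ultrafilter ι) (σ : Type) [Fintype σ]
    [DecidableEq σ] : Prop :=
  ∀ d : ℕ, (∀ (S : Stage k U (Option σ)) (F : MvPowerSeries (Option σ) S.A),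
    Reg (d - 1) F → Concl S F) → ∀ (β : σ →₀ ℕ) (S : Stage k U (Option σ))
    (F : MvPowerSeries (Option σ) S.A), Form d β F → Concl S F

/-- the reduction to the normal form -/
def StepStm (k : Type) [Field k] {ι : Type} (U : Ultrafilter ι) (σ : Type) [Fintype σ]
    [DecidableEq σ] : Prop :=
  ∀ d : ℕ, 0 < d → ∀ (S : Stage k U (Option σ)) (F : MvPowerSeries (Option σ) S.A),
    coeff (Finsupp.single none d) F ≠ 0 → (∀ i < d, coeff (Finsupp.single none i) F = 0) →
    Concl S F ∨ ∃ (T : Stage k U (Option σ)) (c : Chart S T) (L : MvPowerSeries (Option σ) T.A)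
      (β : σ →₀ ℕ) (F₁ : MvPowerSeries (Option σ) T.A),
      Low c ∧ LM L ∧ c.Φ F = L * F₁ ∧ Form d β F₁

theorem concl_of_cc (S : Stage k U (Option σ)) (F : MvPowerSeries (Option σ) S.A)
    (h : constantCoeff F ≠ 0) : Concl S F := by
  obtain ⟨T, c, h1, -, h2⟩ := exists_inv S h
  refine pull_one (c := c) (low_of_X fun j => by rw [h1, map_X]) (concl_of_um (UM.unit ?_))
  rw [isUnit_iff_constantCoeff, c.loc.cc]
  exact h2

theorem concl_of_reg (hl : LoopStm k U σ) (hs : StepStm k U σ) (e : ℕ) :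
    ∀ (S : Stage k U (Option σ)) (F : MvPowerSeries (Option σ) S.A), Reg e F → Concl S F := by
  induction e using Nat.strong_induction_on with
  | _ e ih =>
    intro S F h
    classical
    have hex : ∃ d, coeff (Finsupp.single none d) F ≠ 0 := h.imp fun _ h => h.2
    have hd : Nat.find hex ≤ e := by
      obtain ⟨d, h1, h2⟩ := h
      exact (Nat.find_min' hex h2).trans h1
    rcases (Nat.find hex).eq_zero_or_pos with h0 | h0
    · have := Nat.find_spec hex
      rw [h0, Finsupp.single_zero, coeff_zero_eq_constantCoeff_apply] at this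
      exact concl_of_cc S F this
    · rcases hs _ h0 S F (Nat.find_spec hex) fun i hi => not_not.1 (Nat.find_min hex hi) with
        h1 | ⟨T, c, L, β, F₁, h1, h2, h3, h4⟩
      · exact h1
      · exact pull h1 h2 h3 (hl _ (ih _ (by omega)) β T F₁ h4)

theorem pos_sub {a b : HahnSeries ℝ k} (ha : 0 < a.orderTop) (hb : 0 < b.orderTop) (c : k) :
    0 < (a - c • b).orderTop := by
  obtain ⟨δ, hδ, h⟩ := exists_ge ha
  obtain ⟨ε, hε, h'⟩ := exists_ge hb
  have := (h.mono (min_le_left δ ε)).sub ((h'.mono (min_le_right δ ε)).smul c)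
  exact lt_of_lt_of_le (by exact_mod_cast lt_min hδ hε) this

theorem uAt_option [CharZero k] (hl : LoopStm k U σ) (hs : StepStm k U σ) :
    UAt k U (Option σ) := by
  intro S F hF
  have hG : F * ∏ o, X o ≠ 0 := mul_ne_zero hF (UM.prod fun o _ => UM.X o).ne_zero
  obtain ⟨lam, e, he⟩ := Vale.Agent.P283M.U.shear hG
  have hy : ∀ i, Pos fun o : Option σ =>
      o.elim (S.x i none) fun j => S.x i (some j) - S.s i (lam j) • S.x i none := fun i o => by
    cases o with
    | none => exact S.pos i none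
    | some j => exact pos_sub (S.pos i _) (S.pos i _) _
  obtain ⟨c, hρ, hc⟩ := exists_chart S _ hy (Vale.Agent.P283M.U.shr lam)
    (Vale.Agent.P283M.U.cc_shr lam) (Filter.Eventually.of_forall fun i o => by
      cases o with
      | none => exact ((congrArg _ (map_X _ _)).trans (ev_X (hy i) none)).symm
      | some j =>
        simp only [Vale.Agent.P283M.U.shr, map_add, map_mul, map_X, map_C, ev_add,
          ev_mul (hy i), ev_X (hy i), ev_C (hy i), ← Algebra.smul_def]
        exact (sub_add_cancel _ _).symm)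
  have hr : Reg e (c.Φ (F * ∏ o, X o)) := ⟨e, le_rfl, by
    rw [c.loc.eq_subst, hρ, funext hc]
    simpa using he⟩
  obtain ⟨T, d, h1, h2, -⟩ := concl_of_reg hl hs e _ _ hr
  have hj : jac c.Φ = 1 := by
    rw [jac_row c.Φ (hc none) fun i l hil => ?_]
    · refine Finset.prod_eq_one fun i _ => ?_
      simp [hc, Vale.Agent.P283M.U.shr, pderiv_X_of_ne]
    · simp [hc, Vale.Agent.P283M.U.shr, pderiv_X_of_ne, hil]
  have h4 : UM ((c.comp d).Φ (F * ∏ o, X o)) := h1
  refine ⟨T, c.comp d, h4.of_dvd (map_dvd _ (dvd_mul_right _ _)), ?_, fun o =>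
    h4.of_dvd (map_dvd _ ((Finset.dvd_prod_of_mem _ (Finset.mem_univ o)).mul_left _))⟩
  show UM (jac (d.Φ.comp c.Φ))
  rw [jac_comp _ d.loc, hj, map_one, one_mul]
  exact h2

theorem uAt_all [CharZero k] (hl : ∀ (σ : Type) [Fintype σ] [DecidableEq σ], LoopStm k U σ)
    (hs : ∀ (σ : Type) [Fintype σ] [DecidableEq σ], UAt k U σ → StepStm k U σ)
    (he : ∀ (σ τ : Type) [Fintype σ] [DecidableEq σ] [Fintype τ] [DecidableEq τ], σ ≃ τ →
      UAt k U σ → UAt k U τ)
    (h0 : ∀ (σ : Type) [Fintype σ] [DecidableEq σ] [IsEmpty σ], UAt k U σ)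
    (σ : Type) [Fintype σ] [DecidableEq σ] : UAt k U σ := by
  induction hn : Fintype.card σ generalizing σ with
  | zero =>
    have := Fintype.card_eq_zero_iff.1 hn
    exact h0 σ
  | succ n ih =>
    have e : Option (Fin n) ≃ σ := Fintype.equivOfCardEq (by simp [hn])
    exact he _ _ e (uAt_option (hl _) (hs _ (ih _ (by simp))))

end P283R.U
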