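import Vale.Agent.P283R.Co.Ev1
import Vale.Agent.P283R.U.Hom
import Vale.Agent.P283M.U.Alg

/-!
# Monomialisation of a power series along an ultra-sequence of Hahn arcs: statement and frame
-/

open MvPowerSeries Vale.Agent.P283R.Co

noncomputable section

namespace P283R.U

/-- a unit times a monomial -/
def UM {σ A : Type} [CommRing A] (G : MvPowerSeries σ A) : Prop :=
  ∃ (u : MvPowerSeries σ A) (m : σ →₀ ℕ), IsUnit u ∧ G = u * monomial m 1

/-- the points `s i` are generic along the ultrafilter -/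
def Gen {ι A k : Type} [CommRing A] [Field k] (U : Ultrafilter ι) (s : ι → A →+* k) : Prop :=
  ∀ a : A, (∀ᶠ i in (U : Filter ι), s i a = 0) → a = 0

/-- monomialisation along an ultra-sequence of arcs -/
def UStm : Prop :=
  ∀ (k : Type) [Field k] [IsAlgClosed k] [CharZero k] (ι : Type) (U : Ultrafilter ι)
    (σ : Type) [Fintype σ] [DecidableEq σ] (A : Type) [CommRing A] [IsNoetherianRing A]
    (s : ι → A →+* k) (x : ι → σ → HahnSeries ℝ k), Gen U s → (∀ i, Pos (x i)) →
    ∀ F : MvPowerSeries σ A, F ≠ 0 →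
    ∃ (B : Type) (_ : CommRing B) (_ : IsNoetherianRing B) (ρ : A →+* B) (t : ι → B →+* k)
      (y : ι → σ → HahnSeries ℝ k) (φ : σ → MvPowerSeries σ B),
      Gen U t ∧ (∀ i, Pos (y i)) ∧ (∀ j, constantCoeff (φ j) = 0) ∧
      (∀ᶠ i in (U : Filter ι), (t i).comp ρ = s i ∧ ∀ j, x i j = ev (y i) (map (t i) (φ j))) ∧
      UM ((map ρ F).subst φ) ∧ UM (Matrix.of fun i j => pderiv B j (φ i)).det ∧ ∀ j, UM (φ j)

/-- a ring of constants with generic points and arcs -/
structure Stage (k : Type) [Field k] {ι : Type} (U : Ultrafilter ι) (σ : Type) where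
  A : Type
  [cr : CommRing A]
  [noe : IsNoetherianRing A]
  s : ι → A →+* k
  x : ι → σ → HahnSeries ℝ k
  gen : Gen U s
  pos : ∀ i, Pos (x i)

attribute [instance] Stage.cr Stage.noe

variable {k : Type} [Field k] {ι : Type} {U : Ultrafilter ι} {σ : Type}

instance (S : Stage k U σ) : IsDomain S.A := Vale.Agent.P283M.U.isDomain_of_gen U S.s S.gen

instance [CharZero k] (S : Stage k U σ) : CharZero S.A :=
  (S.s (Filter.nonempty_of_neBot (U : Filter ι)).some).charZero

variable [Fintype σ]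

/-- a substitution through which most of the arcs factor -/
structure Chart (S T : Stage k U σ) where
  ρ : S.A →+* T.A
  Φ : MvPowerSeries σ S.A →+* MvPowerSeries σ T.A
  loc : Loc ρ Φ
  rel : ∀ᶠ i in (U : Filter ι), (T.s i).comp ρ = S.s i ∧
    ∀ j, S.x i j = ev (T.x i) (map (T.s i) (Φ (X j)))

theorem Loc.eq_subst {τ A B : Type} [CommRing A] [CommRing B] {j : A →+* B}
    {ψ : MvPowerSeries σ A →+* MvPowerSeries τ B} (h : Loc j ψ) (F : MvPowerSeries σ A) :
    ψ F = (map j F).subst fun i => ψ (X i) := by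
  have := h.ext (loc_sb j _ h.x) fun i => (sb_X j _ h.x i).symm
  conv_lhs => rw [this]
  simp [sb]

theorem Loc.ev_map {τ A B : Type} [Fintype τ] [CommRing A] [CommRing B] {j : A →+* B}
    {ψ : MvPowerSeries σ A →+* MvPowerSeries τ B} (h : Loc j ψ) (t : B →+* k)
    {y : τ → HahnSeries ℝ k} (hy : Pos y) (F : MvPowerSeries σ A) :
    ev y (map t (ψ F)) = ev (fun i => ev y (map t (ψ (X i)))) (map (t.comp j) F) := by
  have h1 : Loc (t.comp j) ((map t).comp ψ) := h.comp (loc_map t)
  have h2 := h1.eq_subst F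
  simp only [RingHom.comp_apply] at h2
  rw [h2]
  exact ev_subst hy h1.x _

namespace Chart

variable {S T W : Stage k U σ}

theorem ev_eq (c : Chart S T) : ∀ᶠ i in (U : Filter ι), ∀ F,
    ev (S.x i) (map (S.s i) F) = ev (T.x i) (map (T.s i) (c.Φ F)) :=
  c.rel.mono fun i h F => by
    rw [c.loc.ev_map _ (T.pos i), h.1, ← funext h.2]

theorem inj (c : Chart S T) : Function.Injective c.ρ :=
  Vale.Agent.P283M.U.inj_of_gen S.gen (c.rel.mono fun _ h => h.1)

/-- composition of charts -/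
def comp (c : Chart S T) (d : Chart T W) : Chart S W where
  ρ := d.ρ.comp c.ρ
  Φ := d.Φ.comp c.Φ
  loc := c.loc.comp d.loc
  rel := ((c.rel.and d.rel).and d.ev_eq).mono fun i h =>
    ⟨by rw [← RingHom.comp_assoc, h.1.2.1, h.1.1.1], fun j => by
      rw [h.1.1.2 j, h.2]; rfl⟩

/-- the identity chart -/
def refl (S : Stage k U σ) : Chart S S where
  ρ := RingHom.id _
  Φ := RingHom.id _
  loc := loc_id
  rel := Filter.Eventually.of_forall fun i => ⟨rfl, fun j => by simp [ev_X (S.pos i)]⟩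

end Chart

/-- the statement for one set of variables -/
def UAt (k : Type) [Field k] {ι : Type} (U : Ultrafilter ι) (σ : Type) [Fintype σ]
    [DecidableEq σ] : Prop :=
  ∀ (S : Stage k U σ) (F : MvPowerSeries σ S.A), F ≠ 0 →
    ∃ (T : Stage k U σ) (c : Chart S T), UM (c.Φ F) ∧ UM (jac c.Φ) ∧ ∀ j, UM (c.Φ (X j))

theorem uStm_of (h : ∀ (k : Type) [Field k] [IsAlgClosed k] [CharZero k] (ι : Type)
    (U : Ultrafilter ι) (σ : Type) [Fintype σ] [DecidableEq σ], UAt k U σ) : UStm := by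
  intro k _ _ _ ι U σ _ _ A _ _ s x hg hp F hF
  obtain ⟨T, c, h1, h2, h3⟩ := h k ι U σ ⟨A, s, x, hg, hp⟩ F hF
  exact ⟨T.A, inferInstance, inferInstance, c.ρ, T.s, T.x, fun j => c.Φ (X j), T.gen, T.pos,
    c.loc.x, c.rel, c.loc.eq_subst F ▸ h1, h2, h3⟩

/-- a unit times a monomial in the first variables -/
def LM {A : Type} [CommRing A] (G : MvPowerSeries (Option σ) A) : Prop :=
  ∃ (u : MvPowerSeries (Option σ) A) (m : σ →₀ ℕ), IsUnit u ∧ G = u * ren σ A (monomial m 1)

variable [DecidableEq σ]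

/-- the goal of the inner induction -/
def Concl (S : Stage k U (Option σ)) (F : MvPowerSeries (Option σ) S.A) : Prop :=
  ∃ (T : Stage k U (Option σ)) (c : Chart S T), UM (c.Φ F) ∧ UM (jac c.Φ) ∧
    ∀ j, UM (c.Φ (X (some j)))

/-- a chart that is monomial in the first variables -/
def Low {S T : Stage k U (Option σ)} (c : Chart S T) : Prop :=
  LM (jac c.Φ) ∧ ∀ j, LM (c.Φ (X (some j)))

/-- regular of order at most `e` in the last variable -/
def Reg {A : Type} [CommRing A] (e : ℕ) (F : MvPowerSeries (Option σ) A) : Prop :=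
  ∃ d ≤ e, coeff (Finsupp.single none d) F ≠ 0

/-- the normal form of the toric loop -/
def Form {A : Type} [CommRing A] (d : ℕ) (β : σ →₀ ℕ) (F : MvPowerSeries (Option σ) A) : Prop :=
  ∃ (a : ℕ → MvPowerSeries σ A) (W : MvPowerSeries (Option σ) A) (j₀ : ℕ), j₀ + 1 < d ∧
    constantCoeff (a j₀) ≠ 0 ∧ IsUnit W ∧
    F = ∑ j ∈ Finset.range (d - 1), ren σ A (monomial ((d - j) • β) 1 * a j) * X none ^ j +
      X none ^ d * W

end P283R.U
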